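import Vale.Agent.P066.Theta.Defs

/-!
# Rational functions of `v` whose Laurent expansion at `v = 0` has coefficients in `ℕ`

`PosL a` : the expansion of `a ∈ ℚ(v)` in `ℚ((v))` has coefficients in `ℕ`.
-/

set_option autoImplicit false

open Finset

namespace Vale.Agent.P066.Theta

noncomputable section

open scoped LaurentSeries RatFunc

/-- The field of Laurent series. -/
abbrev KL : Type := LaurentSeries ℚ

/-- The expansion at `v = 0`. -/
def expL : K →+* KL := algebraMap K KL

/-- Laurent series with coefficients in `ℕ`. -/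
def NL (x : KL) : Prop := ∀ n : ℤ, ∃ m : ℕ, x.coeff n = m

/-- `PosL a`: the Laurent expansion of `a` at `v = 0` has coefficients in `ℕ`. -/
def PosL (a : K) : Prop := NL (expL a)

theorem expL_injective : Function.Injective expL := expL.injective

theorem NL.zero : NL 0 := fun n => ⟨0, by simp⟩

theorem NL.single (i : ℤ) (m : ℕ) : NL (HahnSeries.single i (m : ℚ)) := by
  intro n
  by_cases h : n = i
  · subst h; exact ⟨m, by simp⟩
  · exact ⟨0, by simp [HahnSeries.coeff_single_of_ne h]⟩

theorem NL.one : NL 1 := by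
  have := NL.single 0 1
  simpa using this

theorem NL.add {x y : KL} (hx : NL x) (hy : NL y) : NL (x + y) := by
  intro n
  obtain ⟨a, ha⟩ := hx n
  obtain ⟨b, hb⟩ := hy n
  exact ⟨a + b, by rw [HahnSeries.coeff_add, ha, hb]; push_cast; rfl⟩

theorem NL.natCast (m : ℕ) : NL (m : KL) := by
  induction m with
  | zero => simpa using NL.zero
  | succ m ih => push_cast; exact ih.add NL.one

theorem exists_nat_sum {ι : Type*} (s : Finset ι) (f : ι → ℚ) (h : ∀ i ∈ s, ∃ m : ℕ, f i = m) :
    ∃ m : ℕ, ∑ i ∈ s, f i = m := by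
  classical
  induction s using Finset.induction_on with
  | empty => exact ⟨0, by simp⟩
  | insert a s ha ih =>
    obtain ⟨m, hm⟩ := h a (mem_insert_self a s)
    obtain ⟨k, hk⟩ := ih fun i hi => h i (mem_insert_of_mem hi)
    exact ⟨m + k, by rw [sum_insert ha, hm, hk]; push_cast; rfl⟩

theorem NL.mul {x y : KL} (hx : NL x) (hy : NL y) : NL (x * y) := by
  intro n
  rw [HahnSeries.coeff_mul]
  refine exists_nat_sum _ _ fun ij _ => ?_
  obtain ⟨a, ha⟩ := hx ij.1
  obtain ⟨b, hb⟩ := hy ij.2
  exact ⟨a * b, by rw [ha, hb]; push_cast; rfl⟩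

theorem NL.sum {ι : Type*} (s : Finset ι) {f : ι → KL} (h : ∀ i ∈ s, NL (f i)) :
    NL (∑ i ∈ s, f i) := by
  classical
  induction s using Finset.induction_on with
  | empty => simpa using NL.zero
  | insert a s ha ih =>
    rw [sum_insert ha]
    exact (h a (mem_insert_self a s)).add (ih fun i hi => h i (mem_insert_of_mem hi))

theorem NL.prod {ι : Type*} (s : Finset ι) {f : ι → KL} (h : ∀ i ∈ s, NL (f i)) :
    NL (∏ i ∈ s, f i) := by
  classical
  induction s using Finset.induction_on with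
  | empty => simpa using NL.one
  | insert a s ha ih =>
    rw [prod_insert ha]
    exact (h a (mem_insert_self a s)).mul (ih fun i hi => h i (mem_insert_of_mem hi))

theorem NL.eq_zero_of_add {x y : KL} (hx : NL x) (hy : NL y) (h : x + y = 0) : x = 0 := by
  ext n
  obtain ⟨a, ha⟩ := hx n
  obtain ⟨b, hb⟩ := hy n
  have h1 : x.coeff n + y.coeff n = 0 := by rw [← HahnSeries.coeff_add, h]; simp
  rw [ha, hb] at h1
  have h2 : a = 0 := by
    have h3 : ((a + b : ℕ) : ℚ) = 0 := by push_cast; exact h1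
    have h4 : a + b = 0 := by exact_mod_cast h3
    omega
  rw [ha, h2]; simp

/-! ### the predicate on `ℚ(v)` -/

theorem expL_v : expL v = HahnSeries.single 1 1 := RatFunc.coe_X

theorem expL_zpow (i : ℤ) : expL (v ^ i) = HahnSeries.single i 1 := by
  rw [map_zpow₀, expL_v]
  exact (RatFunc.single_zpow i).symm

theorem PosL.zero : PosL 0 := by unfold PosL; rw [map_zero]; exact NL.zero

theorem PosL.one : PosL 1 := by unfold PosL; rw [map_one]; exact NL.one

theorem PosL.natCast (m : ℕ) : PosL (m : K) := by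
  unfold PosL; rw [map_natCast]; exact NL.natCast m

theorem PosL.zpow (i : ℤ) : PosL (v ^ i) := by
  unfold PosL; rw [expL_zpow]; simpa using NL.single i 1

theorem PosL.add {a b : K} (ha : PosL a) (hb : PosL b) : PosL (a + b) := by
  unfold PosL; rw [map_add]; exact NL.add ha hb

theorem PosL.mul {a b : K} (ha : PosL a) (hb : PosL b) : PosL (a * b) := by
  unfold PosL; rw [map_mul]; exact NL.mul ha hb

theorem PosL.sum {ι : Type*} (s : Finset ι) {f : ι → K} (h : ∀ i ∈ s, PosL (f i)) :
    PosL (∑ i ∈ s, f i) := by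
  unfold PosL; rw [map_sum]; exact NL.sum s h

theorem PosL.prod {ι : Type*} (s : Finset ι) {f : ι → K} (h : ∀ i ∈ s, PosL (f i)) :
    PosL (∏ i ∈ s, f i) := by
  unfold PosL; rw [map_prod]; exact NL.prod s h

theorem PosL.pow {a : K} (ha : PosL a) (n : ℕ) : PosL (a ^ n) := by
  induction n with
  | zero => simpa using PosL.one
  | succ n ih => rw [pow_succ]; exact ih.mul ha

theorem PosL.eq_zero_of_add {a b : K} (ha : PosL a) (hb : PosL b) (h : a + b = 0) : a = 0 := by
  apply expL_injective
  rw [map_zero]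
  exact NL.eq_zero_of_add ha hb (by rw [← map_add, h, map_zero])

theorem PosL.eq_zero_of_sum {ι : Type*} (s : Finset ι) {f : ι → K} (hf : ∀ i ∈ s, PosL (f i))
    (h : ∑ i ∈ s, f i = 0) : ∀ i ∈ s, f i = 0 := by
  classical
  intro i hi
  rw [← add_sum_erase s f hi] at h
  exact PosL.eq_zero_of_add (hf i hi) (PosL.sum _ fun j hj => hf j (mem_of_mem_erase hj)) h

theorem PosL.add_ne_zero {a b : K} (ha : PosL a) (hb : PosL b) (h : a ≠ 0) : a + b ≠ 0 :=
  fun h' => h (PosL.eq_zero_of_add ha hb h')

theorem PosL.sum_ne_zero {ι : Type*} (s : Finset ι) {f : ι → K} (hf : ∀ i ∈ s, PosL (f i))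
    {i : ι} (hi : i ∈ s) (h : f i ≠ 0) : ∑ i ∈ s, f i ≠ 0 :=
  fun h' => h (PosL.eq_zero_of_sum s hf h' i hi)

theorem Pos.posL {a : K} (h : Pos a) : PosL a := by
  obtain ⟨c, rfl⟩ := h
  rw [Finsupp.sum]
  exact PosL.sum _ fun i _ => (PosL.natCast _).mul (PosL.zpow i)

/-- The coefficients of the expansion of a Laurent polynomial. -/
theorem coeff_expL_laurent (c : ℤ →₀ ℚ) (n : ℤ) :
    (expL (c.sum fun i m => algebraMap ℚ K m * v ^ i)).coeff n = c n := by
  classical
  have h1 : ∀ i, expL (algebraMap ℚ K (c i) * v ^ i) = HahnSeries.single i (c i) := by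
    intro i
    rw [map_mul, expL_zpow]
    have h2 : expL (algebraMap ℚ K (c i)) = HahnSeries.C (c i) := by
      have h3 : (HahnSeries.C (c i) : KL) = ((c i : ℚ) : KL) := by
        simp
      rw [h3, eq_ratCast, map_ratCast]
    rw [h2, HahnSeries.C_apply, HahnSeries.single_mul_single, zero_add, mul_one]
  rw [Finsupp.sum, map_sum, Finset.sum_congr rfl fun i _ => h1 i, HahnSeries.coeff_sum]
  rw [Finset.sum_eq_single n]
  · simp
  · intro b _ hb
    exact HahnSeries.coeff_single_of_ne (Ne.symm hb)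
  · intro hn
    rw [Finsupp.notMem_support_iff] at hn
    simp [hn]

/-- A Laurent polynomial `∑ c_i v^i` satisfies `PosL` iff all `c_i ∈ ℕ`. -/
theorem posL_laurent_iff (c : ℤ →₀ ℚ) :
    PosL (c.sum fun i m => algebraMap ℚ K m * v ^ i) ↔ ∀ i, ∃ m : ℕ, c i = m := by
  unfold PosL NL
  simp only [coeff_expL_laurent]

/-- Integer version: if an integer Laurent polynomial in `v` satisfies `PosL`, its coefficients are
nonnegative. -/
theorem nonneg_of_posL (c : ℤ →₀ ℤ) (h : PosL (c.sum fun i m => (m : K) * v ^ i)) (i : ℤ) :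
    0 ≤ c i := by
  have h1 : (c.sum fun i m => (m : K) * v ^ i)
      = (c.mapRange (Int.cast : ℤ → ℚ) Int.cast_zero).sum
          fun i m => algebraMap ℚ K m * v ^ i := by
    rw [Finsupp.sum_mapRange_index (by intro a; simp)]
    simp
  rw [h1, posL_laurent_iff] at h
  obtain ⟨m, hm⟩ := h i
  rw [Finsupp.mapRange_apply] at hm
  have h2 : (c i : ℚ) = ((m : ℤ) : ℚ) := by rw [hm]; simp
  have h3 : c i = (m : ℤ) := by exact_mod_cast h2
  rw [h3]; positivity

end

end Vale.Agent.P066.Theta
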