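import Vale.Agent.P066.Theta.Ext

/-!
# Statements of the unconditional part

`IsCluster B g`: `g` is the group element of the cluster scattering diagram of the seed `B`
(its attractor data are the quantum dilogarithms of the initial walls).
`WallPos g`: all wall functions are products of quantum dilogarithms.
-/

set_option autoImplicit false

open Finset

namespace Vale.Agent.P066.Theta

noncomputable section

variable {r : ℕ} {B : Matrix (Fin r) (Fin r) ℤ}

/-- total degree of a dimension vector -/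
def deg (γ : Fin r →₀ ℕ) : ℕ := ∑ i, γ i

/-- Euler derivation `x^γ ↦ |γ| x^γ`. -/
def euler (F : QSeries B) : QSeries B := fun γ => (deg γ : K) * F γ

/-- The factorization `g = gp * g0 * gm` according to the sign of `Q`. -/
structure IsTriple (g gp g0 gm : QSeries B) (Q : Fin r → ℤ) : Prop where
  gp_zero : gp 0 = 1
  gp_supp : ∀ γ, γ ≠ 0 → gp γ ≠ 0 → 0 < wt Q γ
  g0_zero : g0 0 = 1
  g0_supp : ∀ γ, g0 γ ≠ 0 → wt Q γ = 0
  gm_zero : gm 0 = 1
  gm_supp : ∀ γ, γ ≠ 0 → gm γ ≠ 0 → wt Q γ < 0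
  eq : g = gp * g0 * gm

open Classical in
/-- Incoming data of the cluster scattering diagram: `n *` the `n`-th coefficient of `log Ψ` on the
rays of the `y_j`, `0` elsewhere. -/
def clusterData (b : Fin r →₀ ℕ) : K :=
  if ∃ j, b = Finsupp.single j (b j) then (-1) ^ (deg b - 1) / (v ^ deg b - (v ^ deg b)⁻¹) else 0

/-- `g` is the element of the cluster scattering diagram of `B`: for every `b ≠ 0`, with
`g = gp * g0 * gm` the factorization for the form `ω(·, b)`, the `b`-coefficient of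
`g0⁻¹ * euler g0` is the incoming datum. -/
def IsCluster (B : Matrix (Fin r) (Fin r) ℤ) (g : QSeries B) : Prop :=
  g 0 = 1 ∧ ∀ b, b ≠ 0 → ∀ gp g0 gm L : QSeries B, IsTriple g gp g0 gm (chartAt B 0 b) →
    g0 * L = euler g0 → L b = clusterData b

/-- Coefficients of the two types of quantum dilogarithms:
`false`: `Ψ(x) = ∏_{i≥0} (1 + v^{2i+1} x)⁻¹`, `true`: `∏_{i≥1} (1 - v^{2i} x)`. -/
def epsCoeff (e : Bool) (n : ℕ) : K :=
  if e then ∏ i ∈ range n, v ^ (2 * (i + 1)) / (v ^ (2 * (i + 1)) - 1) else psi n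

/-- A unit: type, power of `v`, multiplicity `m ≥ 1`; the series `E_e(v^j T^m)`. -/
def unitSeries (u : Bool × ℤ × ℕ) : PowerSeries K :=
  PowerSeries.mk fun n =>
    ∑ i ∈ range (n + 1), if i * u.2.2 = n then epsCoeff u.1 i * v ^ (u.2.1 * (i : ℤ)) else 0

/-- On the ray of `b`, up to degree `D`, the series `F` is a finite product of units. -/
def PosRay (D : ℕ) (b : Fin r →₀ ℕ) (F : QSeries B) : Prop :=
  ∃ l : List (Bool × ℤ × ℕ), (∀ u ∈ l, 0 < u.2.2) ∧
    ∀ n : ℕ, n * deg b ≤ D → F (n • b) = PowerSeries.coeff n (l.map unitSeries).prod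

/-- `Q` is on the wall `b^⊥` and, up to degree `D`, on no other wall. -/
def IsWallAt (Q : Fin r → ℤ) (D : ℕ) (b : Fin r →₀ ℕ) : Prop :=
  wt Q b = 0 ∧ ∀ b', b' ≠ 0 → deg b' ≤ D → wt Q b' = 0 → ∃ n : ℕ, b' = n • b

/-- All wall functions are of positive type. -/
def WallPos (g : QSeries B) : Prop :=
  ∀ (D : ℕ) (Q : Fin r → ℤ) (b : Fin r →₀ ℕ), b ≠ 0 → IsWallAt Q D b →
    ∀ gp g0 gm, IsTriple g gp g0 gm Q → PosRay D b g0

/-- `Q` is close to `ω(·, b)` up to degree `D`. -/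
def NearRay (B : Matrix (Fin r) (Fin r) ℤ) (Q : Fin r → ℤ) (D : ℕ) (b : Fin r →₀ ℕ) : Prop :=
  (∀ b' : Fin r →₀ ℕ, deg b' ≤ D → 0 < omega B (toZ b') (toZ b) → 0 < wt Q b') ∧
  (∀ b' : Fin r →₀ ℕ, deg b' ≤ D → omega B (toZ b') (toZ b) < 0 → wt Q b' < 0)

/-- All attractor (incoming) wall functions are of positive type. -/
def AttrPos (g : QSeries B) : Prop :=
  ∀ (D : ℕ) (Q : Fin r → ℤ) (b : Fin r →₀ ℕ), b ≠ 0 → IsWallAt Q D b → NearRay B Q D b →
    ∀ gp g0 gm, IsTriple g gp g0 gm Q → PosRay D b g0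

/-- The local theorem (rank two lattice `Λ`): if `G` is supported (up to degree `D`) on `Λ`, on which
`ω` is nondegenerate, and all its incoming rays are of positive type, then so are the outgoing
ones. -/
def LocalTheorem : Prop :=
  ∀ (r : ℕ) (B : Matrix (Fin r) (Fin r) ℤ), B.transpose = -B →
    ∀ (Λ : AddSubgroup (Fin r → ℤ)) (D : ℕ) (G : QSeries B),
      G 0 = 1 →
      (∀ γ, deg γ ≤ D → G γ ≠ 0 → toZ γ ∈ Λ) →
      -- rank two: any three elements are dependent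
      (∀ x ∈ Λ, ∀ y ∈ Λ, ∀ z ∈ Λ, ∃ a b c : ℤ, (a ≠ 0 ∨ b ≠ 0 ∨ c ≠ 0) ∧
        a • x + b • y + c • z = 0) →
      -- `Λ` is saturated
      (∀ (x : Fin r → ℤ) (n : ℤ), n ≠ 0 → n • x ∈ Λ → x ∈ Λ) →
      -- `ω` nondegenerate on `Λ`
      (∃ x ∈ Λ, ∃ y ∈ Λ, omega B x y ≠ 0) →
      (∀ b : Fin r →₀ ℕ, b ≠ 0 → toZ b ∈ Λ → (∀ (n : ℕ) (c : Fin r →₀ ℕ), n • c = b → n = 1) →
        ∀ gp g0 gm, IsTriple G gp g0 gm (chartAt B 0 b) → PosRay D b g0) →
      ∀ b : Fin r →₀ ℕ, b ≠ 0 → toZ b ∈ Λ → (∀ (n : ℕ) (c : Fin r →₀ ℕ), n • c = b → n = 1) →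
        ∀ gp g0 gm, IsTriple G gp g0 gm (-(chartAt B 0 b)) → PosRay D b g0

/-- `x_1 x_2 ⋯ x_N`-ordered product of the dilogarithms of the `ε_a`. -/
def Aprod (N k : ℕ) : QSeries (extB N k) :=
  (List.ofFn fun a : Fin N => dilog (extB N k) (epsSet {a})).foldr (· * ·) 1

/-- What is needed from the group element of the extended seed. -/
def GoodElement (N k : ℕ) : Prop :=
  ∃ g : QSeries (extB N k), g 0 = 1 ∧ StrongPositivity g ∧
    (∃ g' : QSeries (extB N k), (∀ γ, g' γ ≠ 0 → ∀ i : Fin N, (i : ℕ) = 0 → γ i = 0) ∧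
      g = Aprod N k * g') ∧
    ∀ (j : Fin N) (m : ℕ), (j : ℕ) ≠ 0 → g (Finsupp.single j m) = psi m

end

end Vale.Agent.P066.Theta
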