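import Vale.Agent.P066.Theta.Top2
import Vale.Agent.P066.Theta.Comb.S6b
import Vale.Agent.P066.Lab.QTAll

/-!
# Top level composition: the remaining inputs are `LAout` and `LSout`
-/

set_option autoImplicit false

open Finset

namespace Vale.Agent.P066.Theta

open Classical in
/-- `S6b`. -/
theorem s6bProp : S6bProp := fun _ _ T hk _ μ γ => S6b.al_prod_Ek T hk μ γ

/-- The Shareshian-Wachs theorem from the numerical Harder-Narasimhan and PBW theorems. -/
theorem shareshianWachs_of_LA_LS (hA : Lab.LAout) (hS : Lab.LSout) {n : ℕ} (h : Fin n → Fin n)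
    (hmono : Monotone h) :
    ∃ c : n.Partition → Polynomial ℤ, (∀ p k, 0 ≤ (c p).coeff k) ∧
      ∀ c' : n.Partition → Polynomial ℤ,
        (∀ N, chromaticQSF (unitIntervalGraph h) N =
          ∑ p : n.Partition,
            MvPolynomial.C (c' p) * MvPolynomial.esymmPart (Fin N) (Polynomial ℤ) p) ↔
          c' = c :=
  shareshianWachs_of_local s6bProp (Lab.localTheorem_of_LA_LS hA hS) h hmono

end Vale.Agent.P066.Theta
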