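import Vale.Agent.P066.Theta.H753.Refactor
import Vale.Agent.P066.Theta.H370.RayU2

/-!
# Attractor wall functions of the cluster element

The element of the cluster scattering diagram (defined by its incoming data) has attractor wall
functions of positive type: they are `1` or the quantum dilogarithm of an initial wall.
-/

set_option autoImplicit false

open Finset

namespace Vale.Agent.P066.Theta

noncomputable section

variable {r : ℕ} {B : Matrix (Fin r) (Fin r) ℤ}

/-- The attractor wall functions of the cluster element are of positive type. -/
theorem attrPos_of_isCluster (hB : B.transpose = -B) {g : QSeries B} (hg : IsCluster B g) :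
    AttrPos g := by
  intro D Q b hb hW hN gp g0 gm T
  obtain ⟨L, hL, hdata⟩ := H753.exists_logder hB hg hb hW.1 hN T
  refine H370.ray_end hB hb ?_ T.g0_zero ?_ hL hdata
  · intro hD n c h
    exact H753.primitive_of_isWallAt hb hW hD h
  · intro a ha hne
    by_cases h0 : a = 0
    · exact ⟨0, by rw [zero_smul, h0]⟩
    · exact hW.2 a h0 ha (T.g0_supp a hne)

end

end Vale.Agent.P066.Theta
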