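import Vale.Agent.P066.Theta.Uncond
import Vale.Agent.P066.Theta.H615.Fact

/-!
# Existence of the element of the cluster scattering diagram

The attractor datum of `g` at `b` is `|b| g_b` plus a function of the coefficients of `g` below `b`,
so there is a series `g` with prescribed attractor data.
-/

set_option autoImplicit false

open Finset

namespace Vale.Agent.P066.Theta

noncomputable section

open QSeries

variable {r : ℕ} {B : Matrix (Fin r) (Fin r) ℤ}

namespace H594

/-- The contribution of the lower coefficients in a product of three series. -/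
def low3 (f g h : QSeries B) (γ : Fin r →₀ ℕ) : K :=
  (∑ p ∈ (antidiagonal γ).filter (fun p => p.1 ≠ 0 ∧ p.2 ≠ 0),
      v ^ omega B (toZ p.1) (toZ p.2) * (f * g) p.1 * h p.2) +
    ∑ p ∈ (antidiagonal γ).filter (fun p => p.1 ≠ 0 ∧ p.2 ≠ 0),
      v ^ omega B (toZ p.1) (toZ p.2) * f p.1 * g p.2

theorem mul3_apply (f g h : QSeries B) (hf : f 0 = 1) (hg : g 0 = 1) (hh : h 0 = 1)
    {γ : Fin r →₀ ℕ} (hγ : γ ≠ 0) :
    (f * g * h) γ = f γ + g γ + h γ + low3 f g h γ := by
  rw [mul_apply_extreme _ _ hγ, mul_zero_apply, hf, hg, hh, mul_apply_extreme f g hγ, hf, hg]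
  unfold low3
  ring

theorem mul_agree_lt {f f' g g' : QSeries B} {γ : Fin r →₀ ℕ}
    (hf : ∀ δ, δ < γ → f δ = f' δ) (hg : ∀ δ, δ < γ → g δ = g' δ) {δ : Fin r →₀ ℕ} (hδ : δ < γ) :
    (f * g) δ = (f' * g') δ := by
  rw [mul_apply, mul_apply]
  refine sum_congr rfl fun p hp => ?_
  rw [HasAntidiagonal.mem_antidiagonal] at hp
  have h1 : p.1 ≤ δ := by
    rw [← hp]
    exact le_self_add
  have h2 : p.2 ≤ δ := by
    rw [← hp]
    exact le_add_self
  rw [hf _ (lt_of_le_of_lt h1 hδ), hg _ (lt_of_le_of_lt h2 hδ)]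

theorem low3_congr {f g h f' g' h' : QSeries B} {γ : Fin r →₀ ℕ}
    (hf : ∀ δ, δ < γ → f δ = f' δ) (hg : ∀ δ, δ < γ → g δ = g' δ)
    (hh : ∀ δ, δ < γ → h δ = h' δ) : low3 f g h γ = low3 f' g' h' γ := by
  unfold low3
  congr 1
  · refine sum_congr rfl fun p hp => ?_
    rw [mem_filter, HasAntidiagonal.mem_antidiagonal] at hp
    have l1 := lt_of_antidiagonal_fst hp.1 hp.2.2
    have l2 := lt_of_antidiagonal_snd hp.1 hp.2.1
    rw [mul_agree_lt hf hg l1, hh _ l2]
  · refine sum_congr rfl fun p hp => ?_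
    rw [mem_filter, HasAntidiagonal.mem_antidiagonal] at hp
    have l1 := lt_of_antidiagonal_fst hp.1 hp.2.2
    have l2 := lt_of_antidiagonal_snd hp.1 hp.2.1
    rw [hf _ l1, hg _ l2]

/-- Existence of the factorization by the sign of `Q`. -/
theorem exists_isTriple (g : QSeries B) (h0 : g 0 = 1) (Q : Fin r → ℤ) :
    ∃ gp g0 gm : QSeries B, IsTriple g gp g0 gm Q := by
  classical
  let P : ((Fin r →₀ ℕ) → K) → QSeries B := fun h γ =>
    if γ = 0 then 1 else if 0 < wt Q γ then h γ else 0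
  let Z : ((Fin r →₀ ℕ) → K) → QSeries B := fun h γ =>
    if γ = 0 then 1 else if wt Q γ = 0 then h γ else 0
  let N : ((Fin r →₀ ℕ) → K) → QSeries B := fun h γ =>
    if γ = 0 then 1 else if wt Q γ < 0 then h γ else 0
  obtain ⟨h, hh⟩ := exists_fix (ι := Fin r →₀ ℕ) (X := K)
    (fun h γ => g γ - low3 (P h) (Z h) (N h) γ) (by
      intro h h' γ hlt
      rw [low3_congr (f' := P h') (g' := Z h') (h' := N h')]
      · intro δ hδ
        simp only [P]
        rw [hlt δ hδ]
      · intro δ hδ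
        simp only [Z]
        rw [hlt δ hδ]
      · intro δ hδ
        simp only [N]
        rw [hlt δ hδ])
  have hP0 : P h 0 = 1 := by simp [P]
  have hZ0 : Z h 0 = 1 := by simp [Z]
  have hN0 : N h 0 = 1 := by simp [N]
  refine ⟨P h, Z h, N h, hP0, ?_, hZ0, ?_, hN0, ?_, ?_⟩
  · intro γ hγ hne
    by_contra hn
    apply hne
    simp [P, hγ, hn]
  · intro γ hne
    by_contra hn
    apply hne
    have : γ ≠ 0 := by
      rintro rfl
      simp at hn
    simp [Z, this, hn]
  · intro γ hγ hne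
    by_contra hn
    apply hne
    simp [N, hγ, hn]
  · ext γ
    by_cases hγ : γ = 0
    · subst hγ
      rw [mul_zero_apply, mul_zero_apply, hP0, hZ0, hN0, h0, one_mul, one_mul]
    · rw [mul3_apply _ _ _ hP0 hZ0 hN0 hγ]
      have e : P h γ + Z h γ + N h γ = h γ := by
        simp only [P, Z, N, if_neg hγ]
        rcases lt_trichotomy (wt Q γ) 0 with hs | hs | hs
        · rw [if_neg (not_lt.2 hs.le), if_neg hs.ne, if_pos hs]
          ring
        · rw [if_neg (by rw [hs]; exact lt_irrefl 0), if_pos hs,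
            if_neg (by rw [hs]; exact lt_irrefl 0)]
          ring
        · rw [if_pos hs, if_neg hs.ne', if_neg (not_lt.2 hs.le)]
          ring
      rw [e, hh γ]
      ring

theorem triple_zero {g gp g0 gm : QSeries B} {Q : Fin r → ℤ} (h : IsTriple g gp g0 gm Q) :
    g 0 = 1 := by
  rw [h.eq, mul_zero_apply, mul_zero_apply, h.gp_zero, h.g0_zero, h.gm_zero, one_mul, one_mul]

/-- The three factors below `b` only depend on `g` below `b`. -/
theorem triple_agree {g gp g0 gm g' gp' g0' gm' : QSeries B} {Q : Fin r → ℤ}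
    (h : IsTriple g gp g0 gm Q) (h' : IsTriple g' gp' g0' gm' Q) (b : Fin r →₀ ℕ)
    (hlt : ∀ δ, δ < b → g δ = g' δ) :
    ∀ δ, δ < b → gp δ = gp' δ ∧ g0 δ = g0' δ ∧ gm δ = gm' δ := by
  intro δ
  induction δ using WellFoundedLT.induction with
  | ind δ ih =>
    intro hδ
    by_cases h0 : δ = 0
    · subst h0
      exact ⟨by rw [h.gp_zero, h'.gp_zero], by rw [h.g0_zero, h'.g0_zero],
        by rw [h.gm_zero, h'.gm_zero]⟩
    have e1 := hlt δ hδ
    rw [h.eq, h'.eq, mul3_apply _ _ _ h.gp_zero h.g0_zero h.gm_zero h0,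
      mul3_apply _ _ _ h'.gp_zero h'.g0_zero h'.gm_zero h0] at e1
    have e2 : low3 gp g0 gm δ = low3 gp' g0' gm' δ :=
      low3_congr (fun ε hε => (ih ε hε (hε.trans hδ)).1) (fun ε hε => (ih ε hε (hε.trans hδ)).2.1)
        (fun ε hε => (ih ε hε (hε.trans hδ)).2.2)
    rw [e2, add_left_inj] at e1
    have zp : ¬ 0 < wt Q δ → gp δ = 0 ∧ gp' δ = 0 := by
      intro hn
      constructor
      · by_contra hc
        exact hn (h.gp_supp δ h0 hc)
      · by_contra hc
        exact hn (h'.gp_supp δ h0 hc)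
    have z0 : ¬ wt Q δ = 0 → g0 δ = 0 ∧ g0' δ = 0 := by
      intro hn
      constructor
      · by_contra hc
        exact hn (h.g0_supp δ hc)
      · by_contra hc
        exact hn (h'.g0_supp δ hc)
    have zm : ¬ wt Q δ < 0 → gm δ = 0 ∧ gm' δ = 0 := by
      intro hn
      constructor
      · by_contra hc
        exact hn (h.gm_supp δ h0 hc)
      · by_contra hc
        exact hn (h'.gm_supp δ h0 hc)
    rcases lt_trichotomy (wt Q δ) 0 with hs | hs | hs
    · obtain ⟨a1, a2⟩ := zp (not_lt.2 hs.le)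
      obtain ⟨a3, a4⟩ := z0 hs.ne
      rw [a1, a2, a3, a4] at e1
      refine ⟨by rw [a1, a2], by rw [a3, a4], by simpa using e1⟩
    · obtain ⟨a1, a2⟩ := zp (by rw [hs]; exact lt_irrefl 0)
      obtain ⟨a3, a4⟩ := zm (by rw [hs]; exact lt_irrefl 0)
      rw [a1, a2, a3, a4] at e1
      refine ⟨by rw [a1, a2], by simpa using e1, by rw [a3, a4]⟩
    · obtain ⟨a1, a2⟩ := z0 hs.ne'
      obtain ⟨a3, a4⟩ := zm (not_lt.2 hs.le)
      rw [a1, a2, a3, a4] at e1
      refine ⟨by simpa using e1, by rw [a1, a2], by rw [a3, a4]⟩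

/-- At an exponent with `Q(b) = 0` the difference of the middle factors is the difference of the
series. -/
theorem triple_sub {g gp g0 gm g' gp' g0' gm' : QSeries B} {Q : Fin r → ℤ}
    (h : IsTriple g gp g0 gm Q) (h' : IsTriple g' gp' g0' gm' Q) {b : Fin r →₀ ℕ} (hb : b ≠ 0)
    (hQ : wt Q b = 0) (hlt : ∀ δ, δ < b → g δ = g' δ) : g0 b - g0' b = g b - g' b := by
  have ha := triple_agree h h' b hlt
  have e2 : low3 gp g0 gm b = low3 gp' g0' gm' b :=
    low3_congr (fun ε hε => (ha ε hε).1) (fun ε hε => (ha ε hε).2.1)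
      (fun ε hε => (ha ε hε).2.2)
  rw [h.eq, h'.eq, mul3_apply _ _ _ h.gp_zero h.g0_zero h.gm_zero hb,
    mul3_apply _ _ _ h'.gp_zero h'.g0_zero h'.gm_zero hb, e2]
  have z1 : gp b = 0 := by
    by_contra hc
    have := h.gp_supp b hb hc
    omega
  have z2 : gp' b = 0 := by
    by_contra hc
    have := h'.gp_supp b hb hc
    omega
  have z3 : gm b = 0 := by
    by_contra hc
    have := h.gm_supp b hb hc
    omega
  have z4 : gm' b = 0 := by
    by_contra hc
    have := h'.gm_supp b hb hc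
    omega
  rw [z1, z2, z3, z4]
  ring

theorem logDer_zero {g0 L : QSeries B} (h0 : g0 0 = 1) (hL : g0 * L = euler g0) : L 0 = 0 := by
  have := congrFun hL 0
  rw [mul_zero_apply, h0, one_mul] at this
  rw [this]
  simp [euler, deg]

/-- The logarithmic derivative at `b` depends on `g0 b` through `|b| * g0 b`. -/
theorem logDer_agree {g0 g0' L L' : QSeries B} (h0 : g0 0 = 1) (h0' : g0' 0 = 1)
    (hL : g0 * L = euler g0) (hL' : g0' * L' = euler g0') {b : Fin r →₀ ℕ}
    (hlt : ∀ δ, δ < b → g0 δ = g0' δ) : ∀ δ, δ < b → L δ = L' δ := by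
  intro δ
  induction δ using WellFoundedLT.induction with
  | ind δ ih =>
    intro hδ
    by_cases hz : δ = 0
    · subst hz
      rw [logDer_zero h0 hL, logDer_zero h0' hL']
    have e1 := congrFun hL δ
    have e2 := congrFun hL' δ
    rw [mul_apply_extreme _ _ hz, h0, logDer_zero h0 hL] at e1
    rw [mul_apply_extreme _ _ hz, h0', logDer_zero h0' hL'] at e2
    have e3 : ∑ p ∈ (antidiagonal δ).filter (fun p => p.1 ≠ 0 ∧ p.2 ≠ 0),
        v ^ omega B (toZ p.1) (toZ p.2) * g0 p.1 * L p.2 =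
        ∑ p ∈ (antidiagonal δ).filter (fun p => p.1 ≠ 0 ∧ p.2 ≠ 0),
        v ^ omega B (toZ p.1) (toZ p.2) * g0' p.1 * L' p.2 := by
      refine sum_congr rfl fun p hp => ?_
      rw [mem_filter, HasAntidiagonal.mem_antidiagonal] at hp
      have l1 := lt_of_antidiagonal_fst hp.1 hp.2.2
      have l2 := lt_of_antidiagonal_snd hp.1 hp.2.1
      rw [hlt _ (l1.trans hδ), ih _ l2 (l2.trans hδ)]
    have e4 : euler g0 δ = euler g0' δ := by
      unfold euler
      rw [hlt _ hδ]
    rw [e3, e4, ← e2] at e1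
    simpa using e1

theorem logDer_sub {g0 g0' L L' : QSeries B} (h0 : g0 0 = 1) (h0' : g0' 0 = 1)
    (hL : g0 * L = euler g0) (hL' : g0' * L' = euler g0') {b : Fin r →₀ ℕ} (hb : b ≠ 0)
    (hlt : ∀ δ, δ < b → g0 δ = g0' δ) : L b - L' b = (deg b : K) * (g0 b - g0' b) := by
  have ha := logDer_agree h0 h0' hL hL' hlt
  have e1 := congrFun hL b
  have e2 := congrFun hL' b
  rw [mul_apply_extreme _ _ hb, h0, logDer_zero h0 hL] at e1
  rw [mul_apply_extreme _ _ hb, h0', logDer_zero h0' hL'] at e2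
  have e3 : ∑ p ∈ (antidiagonal b).filter (fun p => p.1 ≠ 0 ∧ p.2 ≠ 0),
      v ^ omega B (toZ p.1) (toZ p.2) * g0 p.1 * L p.2 =
      ∑ p ∈ (antidiagonal b).filter (fun p => p.1 ≠ 0 ∧ p.2 ≠ 0),
      v ^ omega B (toZ p.1) (toZ p.2) * g0' p.1 * L' p.2 := by
    refine sum_congr rfl fun p hp => ?_
    rw [mem_filter, HasAntidiagonal.mem_antidiagonal] at hp
    have l1 := lt_of_antidiagonal_fst hp.1 hp.2.2
    have l2 := lt_of_antidiagonal_snd hp.1 hp.2.1
    rw [hlt _ l1, ha _ l2]
  rw [e3] at e1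
  have e4 : euler g0 b - euler g0' b = (deg b : K) * (g0 b - g0' b) := by
    unfold euler
    ring
  rw [← e4, ← e1, ← e2]
  ring

/-- The factorization and its logarithmic derivative at `b`. -/
theorem exists_data (g : QSeries B) (h0 : g 0 = 1) (b : Fin r →₀ ℕ) :
    ∃ c : K, ∃ gp g0 gm L : QSeries B, IsTriple g gp g0 gm (chartAt B 0 b) ∧
      g0 * L = euler g0 ∧ L b = c := by
  obtain ⟨gp, g0, gm, h⟩ := exists_isTriple g h0 (chartAt B 0 b)
  refine ⟨_, gp, g0, gm, Ring.inverse g0 * euler g0, h, ?_, rfl⟩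
  rw [← mul_assoc, Ring.mul_inverse_cancel _ (isUnit_of_one h.g0_zero), one_mul]

/-- The series cut off at `b`. -/
def cut (b : Fin r →₀ ℕ) (f : (Fin r →₀ ℕ) → K) : QSeries B := by
  classical
  exact fun δ => if δ = 0 then 1 else if δ < b then f δ else 0

theorem cut_zero (b : Fin r →₀ ℕ) (f : (Fin r →₀ ℕ) → K) : (cut b f : QSeries B) 0 = 1 := by
  unfold cut
  simp

theorem wt_chartAt_zero_self (hB : B.transpose = -B) (b : Fin r →₀ ℕ) :
    wt (chartAt B 0 b) b = 0 := by
  have h1 : wt (chartAt B 0 b) b = omega B (toZ b) (toZ b) := by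
    unfold wt chartAt omega toZ
    refine sum_congr rfl fun i _ => ?_
    simp only [Pi.zero_apply, zero_add, Finset.mul_sum]
    refine sum_congr rfl fun j _ => ?_
    ring
  rw [h1, omega_self hB]

/-- A series with prescribed attractor data. -/
theorem exists_attractor (hB : B.transpose = -B) (c : (Fin r →₀ ℕ) → K) :
    ∃ g : QSeries B, g 0 = 1 ∧ ∀ b, b ≠ 0 → ∀ gp g0 gm L : QSeries B,
      IsTriple g gp g0 gm (chartAt B 0 b) → g0 * L = euler g0 → L b = c b := by
  classical
  obtain ⟨g, hg⟩ := exists_fix (ι := Fin r →₀ ℕ) (X := K)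
    (fun f b => if b = 0 then 1 else
      (c b - Classical.choose (exists_data (B := B) (cut b f) (cut_zero b f) b)) / (deg b : K)) (by
      intro f f' b hlt
      have : (cut b f : QSeries B) = cut b f' := by
        ext δ
        unfold cut
        by_cases h : δ < b
        · simp only [h, if_true, hlt δ h]
        · simp only [h, if_false]
      simp only [this])
  have hg0 : g 0 = 1 := by
    rw [hg 0]
    simp
  refine ⟨(g : QSeries B), hg0, ?_⟩
  intro b hb gp g0 gm L hT hL
  have h1 := hg b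
  simp only [hb, if_false] at h1
  obtain ⟨gp', g0', gm', L', hT', hL', hc⟩ :=
    Classical.choose_spec (exists_data (B := B) (cut b g) (cut_zero b g) b)
  have hlt : ∀ δ, δ < b → (g : QSeries B) δ = (cut b g : QSeries B) δ := by
    intro δ hδ
    unfold cut
    by_cases hz : δ = 0
    · rw [if_pos hz, hz]
      exact hg0
    · rw [if_neg hz, if_pos hδ]
  have hcb : (cut b g : QSeries B) b = 0 := by
    unfold cut
    rw [if_neg hb, if_neg (lt_irrefl b)]
  have h2 := triple_sub hT hT' hb (wt_chartAt_zero_self hB b) hlt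
  have h3 := triple_agree hT hT' b hlt
  have h4 := logDer_sub hT.g0_zero hT'.g0_zero hL hL' hb (fun δ hδ => (h3 δ hδ).2.1)
  rw [h2, hcb, hc, sub_zero] at h4
  have hd : (deg b : K) ≠ 0 := by
    have : deg b ≠ 0 := by
      intro h
      apply hb
      ext i
      unfold deg at h
      simpa using (sum_eq_zero_iff.1 h) i (mem_univ i)
    exact_mod_cast this
  have h5 : (deg b : K) * g b =
      c b - Classical.choose (exists_data (B := B) (cut b g) (cut_zero b g) b) := by
    rw [h1]
    field_simp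
  have h6 : (g : QSeries B) b = g b := rfl
  rw [h6, h5] at h4
  linear_combination h4

end H594

/-- There is an element of the cluster scattering diagram. -/
theorem exists_isCluster (hB : B.transpose = -B) : ∃ g : QSeries B, IsCluster B g := by
  obtain ⟨g, h0, h⟩ := H594.exists_attractor hB clusterData
  exact ⟨g, h0, h⟩

end

end Vale.Agent.P066.Theta
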