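import Vale.Agent.P066.Theta.H403.Omega
import Vale.Agent.P066.Theta.Comb.Pos

/-!
# `E_d = ϑ_{w_d}` (block S6a)

From `T : ThetaData N k`, `1 ≤ k`: the stable set series `Ek N k d` is the theta function of the
greedy stable set of size `d` (and `0` if there is no stable set of size `d`).
-/

set_option autoImplicit false

open Finset

namespace Vale.Agent.P066.Theta.H177

noncomputable section

/-! ### the exponents `ε_I` -/

theorem epsSet_injective {N : ℕ} : Function.Injective (epsSet (N := N)) := by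
  intro I J h
  have h1 := epsExp_injective h
  ext a
  have h2 := congrFun h1 a
  by_cases ha : a ∈ I <;> by_cases hb : a ∈ J <;> simp_all

/-- `ε^m_a = m_a + ε^m_{a+1}`. -/
theorem epsExp_step {N : ℕ} (m : Fin N → ℕ) (a j : Fin N) (h : (j : ℕ) = a + 1) :
    epsExp m a = m a + epsExp m j := by
  rw [epsExp_apply, epsExp_apply]
  have h2 : univ.filter (fun b : Fin N => a ≤ b) =
      insert a (univ.filter (fun b : Fin N => j ≤ b)) := by
    ext b
    simp only [mem_filter, mem_univ, true_and, mem_insert, Fin.le_def, Fin.ext_iff]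
    omega
  rw [h2, Finset.sum_insert]
  simp only [mem_filter, mem_univ, true_and, Fin.le_def]
  omega

/-- `ω(y_j, ε^m) = ∑_b m_b (ω(ε_{j+1}, ε_{b+1}) - ω(ε_j, ε_{b+1}))`. -/
theorem sAt_epsExp {N : ℕ} (k : ℕ) (j : Fin N) (m : Fin N → ℕ) :
    sAt N k j (epsExp m) =
      ∑ b, (m b : ℤ) * (wE k ((j : ℕ) + 1) ((b : ℕ) + 1) - wE k (j : ℕ) ((b : ℕ) + 1)) := by
  have h1 : ∀ b : Fin N, ∑ i ∈ univ.filter (fun i : Fin N => i ≤ b), extB N k j i =
      wE k ((j : ℕ) + 1) ((b : ℕ) + 1) - wE k (j : ℕ) ((b : ℕ) + 1) := by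
    intro b
    have h2 := sum_filter_le_fin b (fun i => (wE k ((j : ℕ) + 1) (i + 1) - wE k (j : ℕ) (i + 1)) -
      (wE k ((j : ℕ) + 1) i - wE k (j : ℕ) i))
    have h3 := Finset.sum_range_sub (fun i => wE k ((j : ℕ) + 1) i - wE k (j : ℕ) i) ((b : ℕ) + 1)
    rw [← h2] at h3
    simp only [wE_zero_right, sub_zero] at h3
    rw [← h3]
    refine Finset.sum_congr rfl fun i _ => ?_
    simp only [extB]
    ring
  unfold sAt
  calc ∑ i, extB N k j i * ((epsExp m i : ℕ) : ℤ)
      = ∑ i, ∑ b, (if i ≤ b then extB N k j i * (m b : ℤ) else 0) := by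
        refine Finset.sum_congr rfl fun i _ => ?_
        rw [epsExp_apply]
        push_cast
        rw [Finset.mul_sum, Finset.sum_filter]
    _ = ∑ b, ∑ i, (if i ≤ b then extB N k j i * (m b : ℤ) else 0) := Finset.sum_comm
    _ = _ := by
        refine Finset.sum_congr rfl fun b _ => ?_
        rw [← h1, Finset.mul_sum, Finset.sum_filter]
        refine Finset.sum_congr rfl fun i _ => ?_
        split_ifs <;> ring

theorem sAt_epsSet {N : ℕ} (k : ℕ) (j : Fin N) (I : Finset (Fin N)) :
    sAt N k j (epsSet I) =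
      ∑ b ∈ I, (wE k ((j : ℕ) + 1) ((b : ℕ) + 1) - wE k (j : ℕ) ((b : ℕ) + 1)) := by
  unfold epsSet
  rw [sAt_epsExp, ← Finset.sum_filter_add_sum_filter_not univ (fun b => b ∈ I)]
  have h2 : ∑ b ∈ univ.filter (fun b => ¬ b ∈ I), (((if b ∈ I then 1 else 0 : ℕ) : ℤ) *
      (wE k ((j : ℕ) + 1) ((b : ℕ) + 1) - wE k (j : ℕ) ((b : ℕ) + 1))) = 0 := by
    refine Finset.sum_eq_zero fun b hb => ?_
    have := (Finset.mem_filter.1 hb).2
    simp [this]
  rw [h2, add_zero]
  have h3 : univ.filter (fun b => b ∈ I) = I := by ext; simp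
  rw [h3]
  refine Finset.sum_congr rfl fun b hb => ?_
  simp [hb]

/-! ### the series `∑_I v^{c|I|} x^{ε_I}` -/

theorem Eser_epsSet {N k : ℕ} (c : ℤ) {I : Finset (Fin N)} (hI : Stable k I) :
    Eser N k c (epsSet I) = v ^ (c * (I.card : ℤ)) := by
  classical
  unfold Eser
  rw [Finset.sum_eq_single I]
  · rw [if_pos ⟨hI, rfl⟩]
  · intro J _ hJ
    rw [if_neg]
    rintro ⟨_, h⟩
    exact hJ (epsSet_injective h)
  · intro h; exact absurd (mem_univ I) h

theorem exists_of_Eser_ne_zero {N k : ℕ} {c : ℤ} {η : Fin N →₀ ℕ} (h : Eser N k c η ≠ 0) :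
    ∃ I : Finset (Fin N), Stable k I ∧ epsSet I = η := by
  classical
  by_contra hcon
  push Not at hcon
  apply h
  unfold Eser
  refine Finset.sum_eq_zero fun I _ => ?_
  rw [if_neg]
  rintro ⟨h1, h2⟩
  exact hcon I h1 h2

/-! ### constituents of `H = ∑_d v^{-d} E_d` -/

variable {N k : ℕ}

/-- The constituents of `H` have no cancellation: if `ϑ_γ` occurs in `H` and `x^η` occurs in `ϑ_γ`,
then `η = ε_I` for a stable set `I`, and `ϑ_γ` is the only constituent containing `x^η`. -/
theorem constituent (T : ThetaData N k) {γ η : Fin N →₀ ℕ}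
    (h1 : T.al γ (Eser N k (-1)) ≠ 0) (h2 : T.th γ η ≠ 0) :
    ∃ I : Finset (Fin N), Stable k I ∧ epsSet I = η ∧
      T.al γ (Eser N k (-1)) * T.th γ η = v ^ (-(I.card : ℤ)) ∧
      ∀ γ', γ' ≠ γ → T.al γ' (Eser N k (-1)) * T.th γ' η = 0 := by
  classical
  have hex := T.expand (Eser N k (-1)) η
  have hpos : ∀ γ' ∈ Finset.Iic η, Pos (T.al γ' (Eser N k (-1)) * T.th γ' η) := fun γ' _ =>
    (T.H_pos γ').mul (T.th_pos γ' η)
  have hmem : γ ∈ Finset.Iic η := Finset.mem_Iic.2 (T.th_supp γ η h2)
  have hne : Eser N k (-1) η ≠ 0 := by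
    rw [hex]
    exact Pos.sum_ne_zero hpos hmem (mul_ne_zero h1 h2)
  obtain ⟨I, hI, rfl⟩ := exists_of_Eser_ne_zero hne
  rw [Eser_epsSet _ hI] at hex
  rw [← Finset.add_sum_erase _ _ hmem] at hex
  have hpos' : ∀ γ' ∈ (Finset.Iic (epsSet I)).erase γ,
      Pos (T.al γ' (Eser N k (-1)) * T.th γ' (epsSet I)) := fun γ' h =>
    hpos γ' (Finset.mem_of_mem_erase h)
  obtain ⟨ha, hb⟩ := Pos.add_eq_zpow (hpos γ hmem) (Pos.sum hpos') hex.symm (mul_ne_zero h1 h2)
  refine ⟨I, hI, rfl, ?_, ?_⟩
  · rw [ha]; congr 1; ring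
  · intro γ' hγ'
    by_cases hle : γ' ≤ epsSet I
    · exact Pos.sum_eq_zero hpos' hb γ' (Finset.mem_erase.2 ⟨hγ', Finset.mem_Iic.2 hle⟩)
    · have : T.th γ' (epsSet I) = 0 := by
        by_contra hh
        exact hle (T.th_supp _ _ hh)
      rw [this, mul_zero]

/-! ### the greedy sets -/

/-- The greedy stable set `{0, k+1, 2(k+1), …}` of size `d`. -/
def greedy (N k d : ℕ) : Finset (Fin N) :=
  univ.filter fun a => (k + 1) ∣ (a : ℕ) ∧ (a : ℕ) / (k + 1) < d

theorem mem_greedy {d : ℕ} {a : Fin N} :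
    a ∈ greedy N k d ↔ (k + 1) ∣ (a : ℕ) ∧ (a : ℕ) / (k + 1) < d := by
  simp [greedy]

theorem epsSet_greedy (d : ℕ) :
    epsSet (greedy N k d) = epsExp (pExp k fun l => if l < d then 1 else 0) := by
  unfold epsSet
  congr 1
  funext a
  unfold pExp
  by_cases h1 : (k + 1) ∣ (a : ℕ) <;> by_cases h2 : (a : ℕ) / (k + 1) < d <;>
    simp [mem_greedy, h1, h2]

theorem stable_greedySet (d : ℕ) : Stable k (greedy N k d) := by
  intro a ha b hb hab
  obtain ⟨x, hx⟩ := (mem_greedy.1 ha).1
  obtain ⟨y, hy⟩ := (mem_greedy.1 hb).1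
  have hab' : (a : ℕ) < b := hab
  rw [hx, hy] at *
  have hxy : x < y := by
    by_contra hcon
    push Not at hcon
    have := Nat.mul_le_mul_left (k + 1) hcon
    omega
  have h3 : (k + 1) * (x + 1) ≤ (k + 1) * y := Nat.mul_le_mul_left _ hxy
  have h4 : (k + 1) * (x + 1) = (k + 1) * x + (k + 1) := by ring
  omega

theorem card_greedy_le (d : ℕ) : (greedy N k d).card ≤ d := by
  have h : (greedy N k d).card ≤ (range d).card := by
    refine Finset.card_le_card_of_injOn (fun a : Fin N => (a : ℕ) / (k + 1)) ?_ ?_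
    · intro a ha
      simpa using (mem_greedy.1 ha).2
    · intro a ha b hb hab
      obtain ⟨x, hx⟩ := (mem_greedy.1 ha).1
      obtain ⟨y, hy⟩ := (mem_greedy.1 hb).1
      simp only [hx, hy, Nat.mul_div_cancel_left _ (Nat.succ_pos k)] at hab
      apply Fin.ext
      rw [hx, hy, hab]
  simpa using h

theorem card_greedy {d : ℕ} (hd : d = 0 ∨ (d - 1) * (k + 1) < N) : (greedy N k d).card = d := by
  refine le_antisymm (card_greedy_le d) ?_
  have hlt : ∀ l : ℕ, l < d → l * (k + 1) < N := by
    intro l hl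
    rcases hd with hd | hd
    · omega
    · exact lt_of_le_of_lt (Nat.mul_le_mul_right _ (by omega)) hd
  have h : (univ : Finset (Fin d)).card ≤ (greedy N k d).card := by
    refine Finset.card_le_card_of_injOn
      (fun l : Fin d => (⟨(l : ℕ) * (k + 1), hlt l l.2⟩ : Fin N)) ?_ ?_
    · intro l _
      simp only [mem_coe, mem_greedy]
      refine ⟨Dvd.intro_left _ rfl, ?_⟩
      rw [Nat.mul_div_cancel _ (Nat.succ_pos k)]
      exact l.2
    · intro l _ l' _ h
      have h' : (l : ℕ) * (k + 1) = (l' : ℕ) * (k + 1) := congrArg Fin.val h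
      exact Fin.ext (Nat.eq_of_mul_eq_mul_right (Nat.succ_pos k) h')
  simpa using h

/-- A stable set of size `d ≥ 1` exists only if `(d-1)(k+1) < N`. -/
theorem card_stable {I : Finset (Fin N)} (hI : Stable k I) :
    I.card = 0 ∨ (I.card - 1) * (k + 1) < N := by
  rcases Nat.eq_zero_or_pos I.card with h | h
  · exact Or.inl h
  right
  obtain ⟨a0, ha0⟩ := Finset.card_pos.1 h
  have hN : 0 < N := lt_of_le_of_lt (Nat.zero_le _) a0.2
  have hcard : I.card ≤ (range ((N - 1) / (k + 1) + 1)).card := by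
    refine Finset.card_le_card_of_injOn (fun a : Fin N => (a : ℕ) / (k + 1)) ?_ ?_
    · intro a _
      simp only [coe_range, Set.mem_Iio]
      have : (a : ℕ) / (k + 1) ≤ (N - 1) / (k + 1) := Nat.div_le_div_right (by omega)
      omega
    · intro a ha b hb hab
      simp only at hab
      rcases lt_trichotomy a b with h | h | h
      · exfalso
        have h1 := hI a ha b hb h
        have h2 := Nat.div_add_mod (a : ℕ) (k + 1)
        have h3 := Nat.div_add_mod (b : ℕ) (k + 1)
        have h4 : (a : ℕ) % (k + 1) < k + 1 := Nat.mod_lt _ (Nat.succ_pos k)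
        have h5 : (b : ℕ) % (k + 1) < k + 1 := Nat.mod_lt _ (Nat.succ_pos k)
        rw [hab] at h2
        omega
      · exact h
      · exfalso
        have h1 := hI b hb a ha h
        have h2 := Nat.div_add_mod (a : ℕ) (k + 1)
        have h3 := Nat.div_add_mod (b : ℕ) (k + 1)
        have h4 : (a : ℕ) % (k + 1) < k + 1 := Nat.mod_lt _ (Nat.succ_pos k)
        have h5 : (b : ℕ) % (k + 1) < k + 1 := Nat.mod_lt _ (Nat.succ_pos k)
        rw [hab] at h2
        omega
  rw [card_range] at hcard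
  have h1 : (I.card - 1) * (k + 1) ≤ (N - 1) / (k + 1) * (k + 1) :=
    Nat.mul_le_mul_right _ (by omega)
  have h2 := Nat.div_mul_le_self (N - 1) (k + 1)
  omega

/-- `ω(ε_a, w_d) ≥ 0` for every vertex `a`. -/
theorem net_greedy_nonneg (d : ℕ) (a : Fin N) :
    0 ≤ ∑ b ∈ greedy N k d, wE k ((a : ℕ) + 1) ((b : ℕ) + 1) := by
  classical
  have hw : ∀ b : Fin N, wE k ((a : ℕ) + 1) ((b : ℕ) + 1) =
      (if (b : ℕ) < a ∧ (a : ℕ) ≤ b + k then 1 else 0) -
      (if (a : ℕ) < b ∧ (b : ℕ) ≤ a + k then 1 else 0) := by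
    intro b
    unfold wE
    split_ifs <;> first | omega | simp_all
  rw [Finset.sum_congr rfl fun b _ => hw b, Finset.sum_sub_distrib, Finset.sum_boole,
    Finset.sum_boole, sub_nonneg]
  have hle : ((greedy N k d).filter
        (fun b : Fin N => (a : ℕ) < (b : ℕ) ∧ (b : ℕ) ≤ (a : ℕ) + k)).card ≤
      ((greedy N k d).filter
        (fun b : Fin N => (b : ℕ) < (a : ℕ) ∧ (a : ℕ) ≤ (b : ℕ) + k)).card := by
    refine Finset.card_le_card_of_injOn
      (fun b : Fin N => (⟨(b : ℕ) - (k + 1), by omega⟩ : Fin N)) ?_ ?_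
    · intro b hb
      obtain ⟨hb1, hb2⟩ := Finset.mem_filter.1 hb
      obtain ⟨⟨x, hx⟩, hb4⟩ := mem_greedy.1 hb1
      have hx0 : 0 < x := by
        rcases Nat.eq_zero_or_pos x with h | h
        · rw [h] at hx; omega
        · exact h
      obtain ⟨y, rfl⟩ : ∃ y, x = y + 1 := ⟨x - 1, by omega⟩
      have hx' : (b : ℕ) - (k + 1) = (k + 1) * y := by
        rw [hx, Nat.mul_add]; omega
      have hx2 : (b : ℕ) = (k + 1) * y + (k + 1) := by rw [hx]; ring
      simp only [coe_filter, Set.mem_setOf_eq, mem_greedy]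
      refine ⟨⟨⟨y, hx'⟩, ?_⟩, ?_⟩
      · rw [hx', Nat.mul_div_cancel_left _ (Nat.succ_pos k)]
        rw [hx, Nat.mul_div_cancel_left _ (Nat.succ_pos k)] at hb4
        omega
      · omega
    · intro b hb b' hb' h
      obtain ⟨hb1, hb2⟩ := Finset.mem_filter.1 hb
      obtain ⟨hb1', hb2'⟩ := Finset.mem_filter.1 hb'
      have key : ∀ b : Fin N, b ∈ greedy N k d → (a : ℕ) < b → k + 1 ≤ (b : ℕ) := by
        intro b hb hab
        obtain ⟨⟨x, hx⟩, _⟩ := mem_greedy.1 hb
        rcases Nat.eq_zero_or_pos x with h | h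
        · rw [h] at hx; omega
        · rw [hx]; exact Nat.le_mul_of_pos_right _ h
      have h1 := key b hb1 hb2.1
      have h2 := key b' hb1' hb2'.1
      have h' : (b : ℕ) - (k + 1) = (b' : ℕ) - (k + 1) := congrArg Fin.val h
      apply Fin.ext
      omega
  exact_mod_cast hle

theorem omega_greedy_nonneg (d : ℕ) (I : Finset (Fin N)) :
    0 ≤ omega (extB N k) (toZ (epsSet I)) (toZ (epsSet (greedy N k d))) := by
  rw [omega_epsSet]
  exact Finset.sum_nonneg fun a _ => net_greedy_nonneg d a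

/-- `α_{w_d}(H) = v^{-d}`. -/
theorem al_greedy (T : ThetaData N k) {d : ℕ} (hd : d = 0 ∨ (d - 1) * (k + 1) < N) :
    T.al (epsSet (greedy N k d)) (Eser N k (-1)) = v ^ (-(d : ℤ)) := by
  rw [T.trace]
  · rw [Eser_epsSet _ (stable_greedySet d), card_greedy hd]
    congr 1; ring
  · intro η hη
    obtain ⟨I, _, rfl⟩ := exists_of_Eser_ne_zero hη
    exact omega_greedy_nonneg d I

/-! ### the moves -/

/-- Moving a token from `a` to `j = a + 1`. -/
def moveUp (I : Finset (Fin N)) (a j : Fin N) : Finset (Fin N) := insert j (I.erase a)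

theorem epsSet_moveUp {I : Finset (Fin N)} {a j : Fin N} (haj : (j : ℕ) = a + 1) (ha : a ∈ I)
    (hj : j ∉ I) : epsSet (moveUp I a j) = epsSet I + Finsupp.single j 1 := by
  have e1 : epsSet (moveUp I a j) = epsSet (I.erase a) + epsSet {j} := by
    unfold epsSet
    rw [← epsExp_add]
    congr 1
    funext b
    simp only [Pi.add_apply, moveUp, mem_insert, mem_erase, mem_singleton]
    by_cases h1 : b = j
    · subst h1
      simp [hj]
    · simp [h1]
  have e2 : epsSet I = epsSet (I.erase a) + epsSet {a} := by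
    unfold epsSet
    rw [← epsExp_add]
    congr 1
    funext b
    simp only [Pi.add_apply, mem_erase, mem_singleton]
    by_cases h1 : b = a
    · subst h1
      simp [ha]
    · simp [h1]
  have e3 : epsSet ({j} : Finset (Fin N)) = epsSet {a} + Finsupp.single j 1 := by
    have hs : ∀ c b : Fin N, epsSet ({c} : Finset (Fin N)) b = if b ≤ c then 1 else 0 := by
      intro c b
      unfold epsSet
      rw [epsExp_apply]
      simp only [mem_singleton]
      rw [Finset.sum_ite_eq' (univ.filter fun a => b ≤ a) c]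
      simp
    ext b
    rw [Finsupp.coe_add, Pi.add_apply, hs, hs, Finsupp.single_apply]
    simp only [Fin.le_def, Fin.ext_iff]
    split_ifs <;> omega
  rw [e1, e2, e3, add_assoc]

theorem th_moveUp (T : ThetaData N k) (hk : 1 ≤ k) {γ : Fin N →₀ ℕ}
    (h1 : T.al γ (Eser N k (-1)) ≠ 0) {I : Finset (Fin N)} {a j : Fin N}
    (haj : (j : ℕ) = a + 1) (ha : a ∈ I) (hI : Stable k I) (hJ : Stable k (moveUp I a j))
    (h2 : T.th γ (epsSet I) ≠ 0) : T.th γ (epsSet (moveUp I a j)) ≠ 0 := by
  classical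
  have hlt : a < j := by rw [Fin.lt_def]; omega
  have hj : j ∉ I := by
    intro hj
    have := hI a ha j hj hlt
    omega
  rw [epsSet_moveUp haj ha hj]
  have hbot : ∀ η', η' ≤ epsSet I → η' ≠ epsSet I → (∀ i, i ≠ j → η' i = epsSet I i) →
      T.th γ η' = 0 := by
    intro η' hle hne hoff
    by_contra h3
    obtain ⟨J, _, hJ', _⟩ := constituent T h1 h3
    have hja : a ≠ j := ne_of_lt hlt
    have h4 := hoff a hja
    have h5 : η' j < epsSet I j := by
      refine lt_of_le_of_ne (hle j) ?_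
      intro h6
      apply hne
      ext i
      by_cases hi : i = j
      · rw [hi, h6]
      · exact hoff i hi
    rw [← hJ'] at h4 h5
    have h7 := epsExp_step (fun b => if b ∈ J then 1 else 0) a j haj
    have h8 := epsExp_step (fun b => if b ∈ I then 1 else 0) a j haj
    rw [if_pos ha] at h8
    have h9 : (if a ∈ J then 1 else 0 : ℕ) ≤ 1 := by split_ifs <;> omega
    unfold epsSet at h4 h5
    omega
  have hs : sAt N k j (epsSet I) = (1 : ℕ) := by
    rw [sAt_epsSet, ← Finset.add_sum_erase _ _ ha]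
    have e0 : wE k ((j : ℕ) + 1) ((a : ℕ) + 1) - wE k (j : ℕ) ((a : ℕ) + 1) = 1 := by
      unfold wE
      rw [haj]
      split_ifs <;> first | omega | simp_all | (exfalso; omega)
    have e1 : ∑ b ∈ I.erase a, (wE k ((j : ℕ) + 1) ((b : ℕ) + 1) - wE k (j : ℕ) ((b : ℕ) + 1)) =
        0 := by
      refine Finset.sum_eq_zero fun b hb => ?_
      obtain ⟨hba, hbI⟩ := Finset.mem_erase.1 hb
      have hbJ : b ∈ moveUp I a j := Finset.mem_insert_of_mem hb
      have hjJ : j ∈ moveUp I a j := Finset.mem_insert_self _ _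
      have hbj : b ≠ j := fun h => hj (h ▸ hbI)
      have c1 : (b : ℕ) + k < a ∨ (a : ℕ) + k < b := by
        rcases lt_or_gt_of_ne hba with h | h
        · exact Or.inl (hI b hbI a ha h)
        · exact Or.inr (hI a ha b hbI h)
      have c2 : (b : ℕ) + k < j ∨ (j : ℕ) + k < b := by
        rcases lt_or_gt_of_ne hbj with h | h
        · exact Or.inl (hJ b hbJ j hjJ h)
        · exact Or.inr (hJ j hjJ b hbJ h)
      unfold wE
      split_ifs <;> omega
    rw [e0, e1]; simp
  exact T.string γ (epsSet I) j (by omega) h2 hbot 1 one_pos hs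

/-- If a stable set is not greedy, a token can be moved down. -/
theorem exists_moveDown {I : Finset (Fin N)} (hk : 1 ≤ k) (hI : Stable k I)
    (hne : I ≠ greedy N k I.card) :
    ∃ a' a : Fin N, (a' : ℕ) = a + 1 ∧ a' ∈ I ∧ a ∉ I ∧ Stable k (insert a (I.erase a')) := by
  classical
  by_contra hcon
  apply hne
  -- every element of `I` is `0` or its translate by `-(k+1)` is in `I`
  have hdown : ∀ a' ∈ I, (a' : ℕ) = 0 ∨ ∃ b ∈ I, (a' : ℕ) = b + (k + 1) := by
    intro a' ha'
    by_contra hc
    push Not at hc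
    apply hcon
    have hpos : 0 < (a' : ℕ) := Nat.pos_of_ne_zero hc.1
    refine ⟨a', ⟨(a' : ℕ) - 1, by omega⟩, by simp; omega, ha', ?_, ?_⟩
    · intro h
      have := hI _ h a' ha' (by rw [Fin.lt_def]; simp; omega)
      simp at this
      omega
    · intro x hx y hy hxy
      have hxy' : (x : ℕ) < y := hxy
      rcases Finset.mem_insert.1 hx with rfl | hx
      · rcases Finset.mem_insert.1 hy with rfl | hy
        · omega
        · obtain ⟨hya, hyI⟩ := Finset.mem_erase.1 hy
          have hlt : a' < y := by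
            rw [Fin.lt_def]
            have : (y : ℕ) ≠ a' := fun h => hya (Fin.ext h)
            simp at hxy'
            omega
          have := hI a' ha' y hyI hlt
          simp
          omega
      · obtain ⟨hxa, hxI⟩ := Finset.mem_erase.1 hx
        rcases Finset.mem_insert.1 hy with rfl | hy
        · simp at hxy'
          have hlt : x < a' := by rw [Fin.lt_def]; omega
          have h1 := hI x hxI a' ha' hlt
          have h2 := hc.2 x hxI
          simp
          omega
        · obtain ⟨hya, hyI⟩ := Finset.mem_erase.1 hy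
          exact hI x hxI y hyI hxy
  have hall : ∀ n : ℕ, ∀ a' ∈ I, (a' : ℕ) = n →
      (k + 1) ∣ n ∧ ∀ l ≤ n / (k + 1), ∃ b ∈ I, (b : ℕ) = (k + 1) * l := by
    intro n
    induction n using Nat.strong_induction_on with
    | _ n ih =>
      intro a' ha' hn
      rcases hdown a' ha' with h0 | ⟨b, hb, hab⟩
      · have hn0 : n = 0 := by omega
        subst hn0
        refine ⟨Dvd.intro 0 rfl, ?_⟩
        intro l hl
        have : l = 0 := by simpa using hl
        exact ⟨a', ha', by rw [this]; simpa using hn⟩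
      · obtain ⟨⟨x, hx⟩, h2⟩ := ih (b : ℕ) (by omega) b hb rfl
        have hn' : n = (k + 1) * (x + 1) := by rw [← hn, hab, hx]; ring
        refine ⟨⟨x + 1, hn'⟩, ?_⟩
        intro l hl
        rw [hn', Nat.mul_div_cancel_left _ (Nat.succ_pos k)] at hl
        rcases Nat.lt_or_ge l (x + 1) with h | h
        · apply h2
          rw [hx, Nat.mul_div_cancel_left _ (Nat.succ_pos k)]
          omega
        · have : l = x + 1 := le_antisymm hl h
          exact ⟨a', ha', by rw [this, hn, hn']⟩
  have hsub : I ⊆ greedy N k I.card := by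
    intro a ha
    rw [mem_greedy]
    obtain ⟨h1, h2⟩ := hall (a : ℕ) a ha rfl
    refine ⟨h1, ?_⟩
    have h2' : ∀ l : ℕ, ∃ b : Fin N, l ≤ (a : ℕ) / (k + 1) → b ∈ I ∧ (b : ℕ) = (k + 1) * l := by
      intro l
      by_cases hl : l ≤ (a : ℕ) / (k + 1)
      · obtain ⟨b, hb, hb2⟩ := h2 l hl
        exact ⟨b, fun _ => ⟨hb, hb2⟩⟩
      · exact ⟨a, fun h => absurd h hl⟩
    choose f hff using h2'
    have hf : ∀ l : ℕ, l ≤ (a : ℕ) / (k + 1) → f l ∈ I := fun l hl => (hff l hl).1
    have hf2 : ∀ l : ℕ, l ≤ (a : ℕ) / (k + 1) → (f l : ℕ) = (k + 1) * l := fun l hl => (hff l hl).2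
    have hc : (range ((a : ℕ) / (k + 1) + 1)).card ≤ I.card := by
      refine Finset.card_le_card_of_injOn f ?_ ?_
      · intro l hl
        exact hf l (by simpa using Nat.lt_succ_iff.1 (by simpa using hl))
      · intro l hl l' hl' h
        have e1 := hf2 l (by simpa using Nat.lt_succ_iff.1 (by simpa using hl))
        have e2 := hf2 l' (by simpa using Nat.lt_succ_iff.1 (by simpa using hl'))
        rw [h, e2] at e1
        exact (Nat.eq_of_mul_eq_mul_left (Nat.succ_pos k) e1).symm
    rw [card_range] at hc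
    omega
  exact Finset.eq_of_subset_of_card_le hsub (card_greedy_le _)

/-- `x^{ε_I}` occurs in `ϑ_{w_d}` for every stable set `I` of size `d`. -/
theorem th_greedy_ne_zero (T : ThetaData N k) (hk : 1 ≤ k) :
    ∀ n : ℕ, ∀ I : Finset (Fin N), Stable k I → ∑ a ∈ I, (a : ℕ) = n →
      T.th (epsSet (greedy N k I.card)) (epsSet I) ≠ 0 := by
  classical
  intro n
  induction n using Nat.strong_induction_on with
  | _ n ih =>
    intro I hI hn
    by_cases hg : I = greedy N k I.card
    · rw [← hg, T.th_self]; exact one_ne_zero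
    · obtain ⟨a', a, haa, ha', ha, hst⟩ := exists_moveDown hk hI hg
      have hcard : (insert a (I.erase a')).card = I.card := by
        rw [Finset.card_insert_of_notMem (fun h => ha (Finset.mem_of_mem_erase h)),
          Finset.card_erase_of_mem ha']
        have := Finset.card_pos.2 ⟨a', ha'⟩
        omega
      have hsum : ∑ b ∈ insert a (I.erase a'), (b : ℕ) < n := by
        rw [Finset.sum_insert (fun h => ha (Finset.mem_of_mem_erase h)), ← hn,
          ← Finset.add_sum_erase I _ ha']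
        omega
      have h1 := ih _ hsum _ hst rfl
      rw [hcard] at h1
      have hback : moveUp (insert a (I.erase a')) a a' = I := by
        ext b
        simp only [moveUp, mem_insert, mem_erase]
        constructor
        · rintro (rfl | ⟨hb, rfl | ⟨_, hb2⟩⟩)
          · exact ha'
          · exact absurd rfl hb
          · exact hb2
        · intro hb
          by_cases hba : b = a'
          · exact Or.inl hba
          · right
            refine ⟨?_, Or.inr ⟨hba, hb⟩⟩
            rintro rfl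
            exact ha hb
      have h2 := th_moveUp T hk (γ := epsSet (greedy N k I.card))
        (by rw [al_greedy T (card_stable hI)]; exact zpow_ne_zero _ v_ne_zero) haa
        (Finset.mem_insert_self a _) hst (by rw [hback]; exact hI) h1
      rwa [hback] at h2

/-! ### the theorem -/

/-- **S6a**: `E_d = ϑ_{w_d}`. -/
theorem Ek_eq_th (T : ThetaData N k) (hk : 1 ≤ k) (d : ℕ)
    (hd : d = 0 ∨ (d - 1) * (k + 1) < N) :
    Ek N k d = T.th (epsExp (pExp k fun l => if l < d then 1 else 0)) := by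
  classical
  rw [← epsSet_greedy]
  have hal := al_greedy T hd
  have hal0 : T.al (epsSet (greedy N k d)) (Eser N k (-1)) ≠ 0 := by
    rw [hal]; exact zpow_ne_zero _ v_ne_zero
  funext η
  unfold Ek
  split_ifs with h
  · obtain ⟨I, hI, hc, rfl⟩ := h
    have h1 := th_greedy_ne_zero T hk _ I hI rfl
    rw [hc] at h1
    obtain ⟨J, _, hJ, h2, _⟩ := constituent T hal0 h1
    rw [epsSet_injective hJ, hc, hal] at h2
    have h3 : (v : K) ^ (-(d : ℤ)) ≠ 0 := zpow_ne_zero _ v_ne_zero
    exact (mul_left_cancel₀ h3 (by rw [h2, mul_one])).symm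
  · by_contra h1
    have h1' : T.th (epsSet (greedy N k d)) η ≠ 0 := fun h2 => h1 h2.symm
    obtain ⟨I, hI, hη, _, h3⟩ := constituent T hal0 h1'
    have hc : I.card ≠ d := fun hc => h ⟨I, hI, hc, hη⟩
    have hne : epsSet (greedy N k I.card) ≠ epsSet (greedy N k d) := by
      intro h4
      have h5 := epsSet_injective h4
      apply hc
      rw [← card_greedy (card_stable hI), ← card_greedy (N := N) (k := k) hd, h5]
    have h4 := h3 _ hne
    rw [al_greedy T (card_stable hI), ← hη] at h4
    rcases mul_eq_zero.1 h4 with h5 | h5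
    · exact zpow_ne_zero _ v_ne_zero h5
    · exact th_greedy_ne_zero T hk _ I hI rfl h5

/-- **S6a**, second part: there is no stable set of size `d`. -/
theorem Ek_eq_zero {d : ℕ} (hd : ¬ (d = 0 ∨ (d - 1) * (k + 1) < N)) : Ek N k d = 0 := by
  classical
  funext η
  unfold Ek
  rw [if_neg]
  · rfl
  · rintro ⟨I, hI, hc, _⟩
    exact hd (hc ▸ card_stable hI)

end

end Vale.Agent.P066.Theta.H177
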