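import Mathlib

/-!
# Quantum theta functions of a quantum cluster scattering diagram (definitions)

Conventions.  `v = q^{1/2}`.  A seed is a skew-symmetric integer matrix `B` of size `r`; the lattice
`ℤ^r = ⊕ ℤ y_i` carries the skew form `ω(y_i, y_j) = B i j`.  The completed quantum torus of the
positive cone is `QSeries B`: formal series `∑_γ f γ x^γ`, `γ ∈ ℕ^r`, with
`x^α x^β = v^{ω(α,β)} x^{α+β}`.

To a maximal green sequence of the seed we attach `g = Ψ(x^{c_1}) Ψ(x^{c_2}) ⋯ Ψ(x^{c_L})`, the
product of quantum dilogarithms over the successive green `c`-vectors: it is the path ordered product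
of the cluster scattering diagram from the initial chamber `C⁺ = {Q : Q(y_i) < 0}` to the
opposite chamber.  For every linear form `Q` the factorization `g = g_{>} g_{≤}` into the parts
supported on `{Q > 0}` and `{Q ≤ 0}` gives the path ordered product `g_{>}` from `C⁺` to `Q`.

Theta functions: for an exponent `p` (in any lattice containing the `y_i`, with
`s i = ω(y_i, p)`) the theta function `ϑ_p = x^p F` is the unique formal series with leading term
`x^p` in the initial chart such that for every `γ ≠ 0` the coefficient of `x^{p+γ}` in the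
expansion of `ϑ_p` in the chart at `Q = p + γ` vanishes.
-/

set_option autoImplicit false

open Finset

namespace Vale.Agent.P066.Theta

noncomputable section

/-- The coefficient field `ℚ(v)`, `v = q^{1/2}`. -/
abbrev K : Type := RatFunc ℚ

/-- The quantum parameter `v = q^{1/2}`. -/
def v : K := RatFunc.X

/-- `Pos a`: `a` is a Laurent polynomial in `v` with coefficients in `ℕ`. -/
def Pos (a : K) : Prop := ∃ c : ℤ →₀ ℕ, a = c.sum fun i m => (m : K) * v ^ i

variable {r : ℕ}

/-- The skew form `ω(x, y) = ∑ x_i B_{ij} y_j` on `ℤ^r`. -/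
def omega (B : Matrix (Fin r) (Fin r) ℤ) (x y : Fin r → ℤ) : ℤ :=
  ∑ i, ∑ j, x i * B i j * y j

/-- A dimension vector in `ℕ^r` as a vector in `ℤ^r`. -/
def toZ (γ : Fin r →₀ ℕ) : Fin r → ℤ := fun i => (γ i : ℤ)

/-- A nonnegative vector in `ℤ^r` as a dimension vector (negative entries are cut off). -/
def toN (c : Fin r → ℤ) : Fin r →₀ ℕ := Finsupp.equivFunOnFinite.symm fun i => (c i).toNat

/-- Completed quantum torus of the cone `ℕ^r`: formal series `∑_γ f γ x^γ`. -/
def QSeries (_B : Matrix (Fin r) (Fin r) ℤ) : Type := (Fin r →₀ ℕ) → K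

namespace QSeries

variable {B : Matrix (Fin r) (Fin r) ℤ}

instance : AddCommGroup (QSeries B) := inferInstanceAs (AddCommGroup ((Fin r →₀ ℕ) → K))

instance : Module K (QSeries B) := inferInstanceAs (Module K ((Fin r →₀ ℕ) → K))

/-- `1 = x^0`. -/
instance : One (QSeries B) := ⟨fun γ => if γ = 0 then 1 else 0⟩

/-- The twisted product `x^α x^β = v^{ω(α,β)} x^{α+β}`. -/
instance : Mul (QSeries B) :=
  ⟨fun f g γ => ∑ p ∈ antidiagonal γ, v ^ omega B (toZ p.1) (toZ p.2) * f p.1 * g p.2⟩

end QSeries

variable (B : Matrix (Fin r) (Fin r) ℤ)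

/-- Coefficients of the quantum dilogarithm `Ψ(x) = ∏_{i ≥ 0} (1 + v^{2i+1} x)⁻¹`,
`Ψ(v² x) = (1 + v x) Ψ(x)`. -/
def psi (m : ℕ) : K := ∏ i ∈ range m, v / (v ^ (2 * (i + 1)) - 1)

/-- The quantum dilogarithm `Ψ(x^c) = ∑_m ψ_m x^{m c}` (for `c ≠ 0`). -/
def dilog (c : Fin r →₀ ℕ) : QSeries B :=
  fun γ => ∑ m ∈ range ((∑ i, γ i) + 1), if m • c = γ then psi m else 0

/-- Mutation of the `c`-vectors at a green vertex `k`: `c_k ↦ -c_k`,
`c_j ↦ c_j + [ω(c_j, c_k)]_+ c_k`. -/
def mutC (c : Fin r → Fin r → ℤ) (k : Fin r) : Fin r → Fin r → ℤ :=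
  fun j => if j = k then -c k else c j + max (omega B (c j) (c k)) 0 • c k

/-- Starting at the `c`-vectors `c`, the list of vertices is a green mutation sequence which ends
at a seed all of whose `c`-vectors are nonpositive. -/
def GreenToEnd : (Fin r → Fin r → ℤ) → List (Fin r) → Prop
  | c, [] => ∀ j i, c j i ≤ 0
  | c, k :: l => (∀ i, 0 ≤ c k i) ∧ GreenToEnd (mutC B c k) l

/-- `l` is a maximal green sequence of the seed `B`. -/
def IsMaximalGreen (l : List (Fin r)) : Prop := GreenToEnd B (fun j => Pi.single j 1) l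

/-- The ordered product of the quantum dilogarithms of the green `c`-vectors. -/
def greenProd : (Fin r → Fin r → ℤ) → List (Fin r) → QSeries B
  | _, [] => 1
  | c, k :: l => dilog B (toN (c k)) * greenProd (mutC B c k) l

/-- The path ordered product `C⁺ → C⁻` of the cluster scattering diagram of the seed, computed
along the maximal green sequence `l`. -/
def gOf (l : List (Fin r)) : QSeries B := greenProd B (fun j => Pi.single j 1) l

/-- The value of the linear form `Q` at a dimension vector. -/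
def wt (Q : Fin r → ℤ) (γ : Fin r →₀ ℕ) : ℤ := ∑ i, (γ i : ℤ) * Q i

variable {B}

/-- `gp` is the `{Q > 0}`-part of `g`, i.e. the path ordered product from `C⁺` to the chart at `Q`:
`g = gp * gm` with `gp ∈ 1 + {Q > 0}` and `gm` supported on `{Q ≤ 0}`. -/
structure IsPosPart (g gp : QSeries B) (Q : Fin r → ℤ) : Prop where
  zero : gp 0 = 1
  supp : ∀ γ, γ ≠ 0 → gp γ ≠ 0 → 0 < wt Q γ
  rest : ∃ gm : QSeries B, (∀ γ, gm γ ≠ 0 → wt Q γ ≤ 0) ∧ g = gp * gm

/-- Conjugation by `x^p` where `s i = ω(y_i, p)`: `F x^p = x^p (twist s F)`. -/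
def twist (s : Fin r → ℤ) (F : QSeries B) : QSeries B := fun γ => v ^ (2 * wt s γ) * F γ

/-- The linear form `ω(·, p + γ)` where `s i = ω(y_i, p)`. -/
def chartAt (B : Matrix (Fin r) (Fin r) ℤ) (s : Fin r → ℤ) (γ : Fin r →₀ ℕ) : Fin r → ℤ :=
  fun i => s i + ∑ j, B i j * (γ j : ℤ)

/-- `R γ` is (up to a power of `v`) the coefficient of `x^{p+γ}` in the expansion of
`x^p F` in the chart at `p + γ` (`s i = ω(y_i, p)`): `x^p R = gp⁻¹ (x^p F) gp`. -/
structure IsChartExpansion (g : QSeries B) (s : Fin r → ℤ) (γ : Fin r →₀ ℕ) (F R : QSeries B) :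
    Prop where
  out : ∃ gp : QSeries B, IsPosPart g gp (chartAt B s γ) ∧ twist s gp * R = F * gp

/-- `x^p F` is the theta function `ϑ_p`, where `s i = ω(y_i, p)`. -/
structure IsTheta (g : QSeries B) (s : Fin r → ℤ) (F : QSeries B) : Prop where
  zero : F 0 = 1
  vanish : ∀ γ, γ ≠ 0 → ∀ R, IsChartExpansion g s γ F R → R γ = 0

/-- Strong positivity of the quantum theta functions of the seed with group element `g`:
for all `p, p'`, the coefficient of every `ϑ_{p+p'+γ}` in `ϑ_p ϑ_{p'}`, which is the coefficient of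
`x^{p+p'+γ}` in the expansion of `ϑ_p ϑ_{p'}` in the chart at `p+p'+γ`, lies in `ℕ[v, v⁻¹]`. -/
def StrongPositivity (g : QSeries B) : Prop :=
  ∀ (s s' : Fin r → ℤ) (F F' : QSeries B), IsTheta g s F → IsTheta g s' F' →
    ∀ γ R, IsChartExpansion g (s + s') γ (twist s' F * F') R → Pos (R γ)

/-- The theorem of Davison and Mandel (*Strong positivity for quantum theta bases of quantum
cluster algebras*, Invent. Math. 226 (2021)), for the seeds which have a maximal green sequence
(principal coefficients: all `s ∈ ℤ^r` occur). -/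
def DavisonMandel : Prop :=
  ∀ (r : ℕ) (B : Matrix (Fin r) (Fin r) ℤ), B.transpose = -B →
    ∀ l : List (Fin r), IsMaximalGreen B l → StrongPositivity (gOf B l)

end

end Vale.Agent.P066.Theta
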