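import Mathlib

/-!
# The commutation argument for `twist A = E * A` (abstract form)

`w c = v x_c`, `P c = Ψ(x_c)` (`c : ℕ`); for `c < a` the vertices `c`, `a` are adjacent iff
`a ≤ c + k`.  `Apr P c = P 0 ⋯ P (c-1)`, `E (c+1) = E c + E (c - k) * w c`.
-/

set_option autoImplicit false

namespace Vale.Agent.P066.Theta.DilogAlg

variable {R : Type*} [Ring R]

/-- Ordered product `P 0 * ⋯ * P (c-1)`. -/
def Apr (P : ℕ → R) : ℕ → R
  | 0 => 1
  | c + 1 => Apr P c * P c

theorem Apr_comm {P : ℕ → R} {y : R} {b : ℕ} (h : ∀ c, c < b → Commute y (P c)) :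
    Commute y (Apr P b) := by
  induction b with
  | zero => exact Commute.one_right _
  | succ b ih =>
    exact (ih fun c hc => h c (by omega)).mul_right (h b (by omega))

/-- The hypotheses of the commutation argument. -/
structure Data (N k : ℕ) (P E w : ℕ → R) : Prop where
  far : ∀ c a, c + k < a → a < N → Commute (w a) (P c)
  near : ∀ c a, c < a → a ≤ c + k → a < N → (1 + w c) * P c * w a = w a * P c
  zero : E 0 = 1
  succ : ∀ c, c < N → E (c + 1) = E c + E (c - k) * w c

variable {N k : ℕ} {P E w : ℕ → R}

theorem stepII (h : Data N k P E w) {b : ℕ} (hb : b < N)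
    (hI : E b * Apr P b * w b = E (b - k) * w b * Apr P b) :
    E (b + 1) * Apr P b = E b * Apr P b * (1 + w b) := by
  rw [h.succ b hb, add_mul, mul_add, mul_one, hI]

theorem stepI (h : Data N k P E w) : ∀ b a : ℕ, a - k ≤ b → b ≤ a → a < N →
    E b * Apr P b * w a = E (a - k) * w a * Apr P b := by
  intro b
  induction b with
  | zero =>
    intro a h1 _ _
    have : a - k = 0 := by omega
    simp [this, Apr]
  | succ b ih =>
    intro a h1 h2 h3
    rcases Nat.lt_or_ge b (a - k) with hlt | hge
    · have e : a - k = b + 1 := by omega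
      rw [e, mul_assoc, mul_assoc]
      congr 1
      exact (Apr_comm fun c hc => h.far c a (by omega) h3).symm.eq
    · have hII := stepII h (b := b) (by omega) (ih b (by omega) le_rfl (by omega))
      have hI := ih a hge (by omega) h3
      have hn := h.near b a (by omega) (by omega) h3
      calc E (b + 1) * Apr P (b + 1) * w a
          = E (b + 1) * Apr P b * (P b * w a) := by simp only [Apr, mul_assoc]
        _ = E b * Apr P b * ((1 + w b) * P b * w a) := by rw [hII]; simp only [mul_assoc]
        _ = E b * Apr P b * w a * P b := by rw [hn]; simp only [mul_assoc]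
        _ = E (a - k) * w a * Apr P (b + 1) := by rw [hI]; simp only [Apr, mul_assoc]

theorem main (h : Data N k P E w) : ∀ c : ℕ, c ≤ N →
    Apr (fun i => (1 + w i) * P i) c = E c * Apr P c := by
  intro c
  induction c with
  | zero => intro _; simp [Apr, h.zero]
  | succ c ih =>
    intro hc
    have hII := stepII h (b := c) (by omega) (stepI h c c (by omega) le_rfl (by omega))
    simp only [Apr]
    rw [ih (by omega), ← mul_assoc, ← mul_assoc, hII]

end Vale.Agent.P066.Theta.DilogAlg
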