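import Vale.Agent.P066.Theta.Uncond
import Vale.Agent.P066.Theta.H615.Ring
import Vale.Agent.P066.Theta.DilogAlg
import Vale.Agent.P066.Theta.H403.Omega

/-!
# `twist A = E * A` for `A = Ψ(x^{ε_1}) ⋯ Ψ(x^{ε_N})`
-/

set_option autoImplicit false

open Finset

namespace Vale.Agent.P066.Theta

noncomputable section

namespace Dil

open QSeries

variable {r : ℕ} {B : Matrix (Fin r) (Fin r) ℤ}

theorem v_ne : v ≠ 0 := RatFunc.X_ne_zero

theorem wt_smul (Q : Fin r → ℤ) (m : ℕ) (x : Fin r →₀ ℕ) : wt Q (m • x) = m * wt Q x := by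
  simp [wt, mul_sum, mul_assoc]

theorem smul_mul_q (t : K) (f g : QSeries B) : (t • f) * g = t • (f * g) :=
  smul_mul_assoc t f g

theorem mul_smul_q (t : K) (f g : QSeries B) : f * (t • g) = t • (f * g) :=
  mul_smul_comm t f g

theorem mono_mul_apply' (a : Fin r →₀ ℕ) (f : QSeries B) (e : Fin r →₀ ℕ) :
    ((mono a : QSeries B) * f) e =
      if a ≤ e then v ^ omega B (toZ a) (toZ (e - a)) * f (e - a) else 0 := by
  rw [QSeries.mul_apply]
  split_ifs with h
  · rw [Finset.sum_eq_single (a, e - a)]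
    · simp [mono]
    · rintro ⟨x, y⟩ h1 h2
      simp only [HasAntidiagonal.mem_antidiagonal] at h1
      have : x ≠ a := by
        rintro rfl
        apply h2
        rw [← h1]; simp
      simp [mono, this]
    · intro h'
      exfalso; apply h'
      simp [HasAntidiagonal.mem_antidiagonal, add_tsub_cancel_of_le h]
  · refine sum_eq_zero ?_
    rintro ⟨x, y⟩ h1
    simp only [HasAntidiagonal.mem_antidiagonal] at h1
    have : x ≠ a := by
      rintro rfl
      apply h
      rw [← h1]; simp
    simp [mono, this]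

theorem mul_mono_apply' (a : Fin r →₀ ℕ) (f : QSeries B) (e : Fin r →₀ ℕ) :
    (f * (mono a : QSeries B)) e =
      if a ≤ e then v ^ omega B (toZ (e - a)) (toZ a) * f (e - a) else 0 := by
  rw [QSeries.mul_apply]
  split_ifs with h
  · rw [Finset.sum_eq_single (e - a, a)]
    · simp [mono]
    · rintro ⟨x, y⟩ h1 h2
      simp only [HasAntidiagonal.mem_antidiagonal] at h1
      have : y ≠ a := by
        rintro rfl
        apply h2
        rw [← h1]; simp
      simp [mono, this]
    · intro h'
      exfalso; apply h'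
      simp [HasAntidiagonal.mem_antidiagonal, tsub_add_cancel_of_le h]
  · refine sum_eq_zero ?_
    rintro ⟨x, y⟩ h1
    simp only [HasAntidiagonal.mem_antidiagonal] at h1
    have : y ≠ a := by
      rintro rfl
      apply h
      rw [← h1]; simp
    simp [mono, this]

theorem mono_mul_mono' (a b : Fin r →₀ ℕ) :
    (mono a : QSeries B) * mono b = v ^ omega B (toZ a) (toZ b) • mono (a + b) := by
  funext e
  rw [mono_mul_apply']
  change _ = v ^ omega B (toZ a) (toZ b) * mono (B := B) (a + b) e
  by_cases h : e = a + b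
  · subst h
    simp [mono]
  · simp only [mono, if_neg h, mul_zero]
    split_ifs with h1 h2
    · exfalso; apply h; rw [← h2, add_tsub_cancel_of_le h1]
    · simp
    · rfl

theorem omega_smul_left (m : ℕ) (x : Fin r →₀ ℕ) (z : Fin r → ℤ) :
    omega B (toZ (m • x)) z = m * omega B (toZ x) z := by
  simp [omega, toZ, mul_sum, mul_assoc]

theorem omega_smul_right (m : ℕ) (x : Fin r →₀ ℕ) (z : Fin r → ℤ) :
    omega B z (toZ (m • x)) = m * omega B z (toZ x) := by
  simp only [omega, toZ, mul_sum, Finsupp.smul_apply, smul_eq_mul, Nat.cast_mul]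
  exact sum_congr rfl fun i _ => sum_congr rfl fun j _ => by ring

/-- the series `∑_m f m x^{m c}` (`c ≠ 0`). -/
def line (B : Matrix (Fin r) (Fin r) ℤ) (c : Fin r →₀ ℕ) (f : ℕ → K) : QSeries B :=
  fun γ => ∑ m ∈ range ((∑ i, γ i) + 1), if m • c = γ then f m else 0

theorem dilog_eq_line (c : Fin r →₀ ℕ) : dilog B c = line B c psi := rfl

theorem smul_inj {c : Fin r →₀ ℕ} (hc : c ≠ 0) {m' m : ℕ} : m' • c = m • c ↔ m' = m := by
  constructor
  · intro h
    obtain ⟨i, hi⟩ := Finsupp.ne_iff.mp hc
    have := DFunLike.congr_fun h i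
    simp only [Finsupp.smul_apply, smul_eq_mul] at this
    exact Nat.eq_of_mul_eq_mul_right (Nat.pos_of_ne_zero hi) this
  · rintro rfl; rfl

theorem line_smul_apply {c : Fin r →₀ ℕ} (hc : c ≠ 0) (f : ℕ → K) (m : ℕ) :
    line B c f (m • c) = f m := by
  simp only [line, smul_inj hc]
  rw [sum_ite_eq' (range _) m f, if_pos]
  rw [mem_range]
  obtain ⟨i, hi⟩ := Finsupp.ne_iff.mp hc
  have h1 : (m • c) i ≤ ∑ j, (m • c) j := Finset.single_le_sum (fun _ _ => Nat.zero_le _) (mem_univ i)
  have h2 : m ≤ (m • c) i := by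
    simp only [Finsupp.smul_apply, smul_eq_mul]
    exact Nat.le_mul_of_pos_right m (Nat.pos_of_ne_zero hi)
  omega

theorem line_apply_of_not {c : Fin r →₀ ℕ} (f : ℕ → K) {γ : Fin r →₀ ℕ}
    (h : ∀ m : ℕ, m • c ≠ γ) : line B c f γ = 0 := by
  simp [line, h]

theorem line_congr (c : Fin r →₀ ℕ) {f g : ℕ → K} (h : ∀ m, f m = g m) :
    line B c f = line B c g := by
  rw [funext h]

theorem line_add (c : Fin r →₀ ℕ) (f g : ℕ → K) :
    line B c f + line B c g = line B c (fun m => f m + g m) := by
  funext γ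
  change line B c f γ + line B c g γ = _
  simp only [line, ← sum_add_distrib]
  refine sum_congr rfl fun m _ => ?_
  split_ifs <;> simp

theorem smul_line (c : Fin r →₀ ℕ) (t : K) (f : ℕ → K) :
    t • line B c f = line B c (fun m => t * f m) := by
  funext γ
  change t * line B c f γ = _
  simp only [line, mul_sum]
  refine sum_congr rfl fun m _ => ?_
  split_ifs <;> simp

theorem twist_line (s : Fin r → ℤ) {c : Fin r →₀ ℕ} (hc : c ≠ 0) (f : ℕ → K) :
    twist s (line B c f) = line B c (fun m => v ^ (2 * (m * wt s c)) * f m) := by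
  funext γ
  by_cases h : ∃ m : ℕ, m • c = γ
  · obtain ⟨m, rfl⟩ := h
    simp only [twist]
    rw [line_smul_apply hc, line_smul_apply hc, wt_smul]
  · push Not at h
    simp only [twist]
    rw [line_apply_of_not _ h, line_apply_of_not _ h, mul_zero]

/-- `x^c · ∑ f_m x^{mc} = ∑ f_{m-1} x^{mc}` -/
theorem mono_mul_line (hB : B.transpose = -B) {c : Fin r →₀ ℕ} (hc : c ≠ 0) (f : ℕ → K) :
    (mono c : QSeries B) * line B c f = line B c (fun m => if m = 0 then 0 else f (m - 1)) := by
  funext γ
  rw [mono_mul_apply']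
  by_cases h : ∃ m : ℕ, m • c = γ
  · obtain ⟨m, rfl⟩ := h
    rw [line_smul_apply hc]
    rcases Nat.eq_zero_or_pos m with rfl | hm
    · rw [if_neg, if_pos rfl]
      rw [zero_smul]
      intro h
      exact hc (le_antisymm h (zero_le))
    · obtain ⟨m, rfl⟩ : ∃ m', m = m' + 1 := ⟨m - 1, by omega⟩
      have e : (m + 1) • c - c = m • c := by
        rw [add_smul, one_smul, add_tsub_cancel_right]
      rw [if_pos, e, line_smul_apply hc, omega_smul_right, omega_self hB]
      · simp
      · rw [add_smul, one_smul]; exact le_add_self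
  · push Not at h
    rw [line_apply_of_not _ h]
    split_ifs with h1
    · rw [line_apply_of_not, mul_zero]
      intro m hm
      apply h (m + 1)
      rw [add_smul, one_smul, hm, tsub_add_cancel_of_le h1]
    · rfl

/-- `x^a · ∑ f_m x^{mc} = (∑ v^{2 m ω(a,c)} f_m x^{mc}) x^a` -/
theorem mono_mul_line_comm (hB : B.transpose = -B) {c : Fin r →₀ ℕ} (hc : c ≠ 0)
    (a : Fin r →₀ ℕ) (f : ℕ → K) :
    (mono a : QSeries B) * line B c f =
      line B c (fun m => v ^ (2 * (m * omega B (toZ a) (toZ c))) * f m) * mono a := by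
  funext γ
  rw [mono_mul_apply', mul_mono_apply']
  by_cases h1 : a ≤ γ
  · rw [if_pos h1, if_pos h1]
    by_cases h : ∃ m : ℕ, m • c = γ - a
    · obtain ⟨m, hm⟩ := h
      rw [← hm, line_smul_apply hc, line_smul_apply hc, omega_smul_left, omega_smul_right,
        omega_swap hB (toZ c) (toZ a), ← mul_assoc, ← zpow_add₀ v_ne]
      congr 2
      ring
    · push Not at h
      rw [line_apply_of_not _ h, line_apply_of_not _ h, mul_zero, mul_zero]
  · rw [if_neg h1, if_neg h1]

theorem pow_sub_one_ne (m : ℕ) : (v ^ (2 * (m + 1)) - 1 : K) ≠ 0 := by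
  have h : (Polynomial.X ^ (2 * (m + 1)) - 1 : Polynomial ℚ) ≠ 0 := by
    have := Polynomial.X_pow_sub_C_ne_zero (R := ℚ) (n := 2 * (m + 1)) (by omega) 1
    simpa using this
  have h2 := (map_ne_zero_iff (algebraMap (Polynomial ℚ) (RatFunc ℚ))
    (RatFunc.algebraMap_injective ℚ)).mpr h
  intro h3
  apply h2
  rw [map_sub, map_pow, map_one, RatFunc.algebraMap_X]
  exact h3

theorem psi_zero : psi 0 = 1 := by simp [psi]

theorem psi_succ (m : ℕ) : psi (m + 1) = psi m * (v / (v ^ (2 * (m + 1)) - 1)) := by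
  rw [psi, prod_range_succ]; rfl

/-- `v^{2m} ψ_m = ψ_m + v ψ_{m-1}`. -/
theorem psi_rec (m : ℕ) : v ^ (2 * (m : ℤ)) * psi m =
    psi m + v * (if m = 0 then 0 else psi (m - 1)) := by
  rcases m with _ | m
  · simp
  · rw [if_neg (by omega), Nat.add_sub_cancel, psi_succ]
    have h := pow_sub_one_ne m
    have e : v ^ (2 * ((m + 1 : ℕ) : ℤ)) = v ^ (2 * (m + 1)) := by
      rw [← zpow_natCast]; push_cast; rfl
    rw [e]
    field_simp
    ring

/-- `(1 + v x^c) Ψ(x^c) = Ψ(v² x^c)`. -/
theorem one_add_mul_dilog (hB : B.transpose = -B) {c : Fin r →₀ ℕ} (hc : c ≠ 0) :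
    (1 + v • mono c) * dilog B c = line B c (fun m => v ^ (2 * (m : ℤ)) * psi m) := by
  rw [add_mul, one_mul, dilog_eq_line]
  rw [smul_mul_q, mono_mul_line hB hc, smul_line, line_add]
  exact line_congr c fun m => (psi_rec m).symm

/-- `twist s Ψ(x^c) = (1 + v x^c) Ψ(x^c)` if `s(c) = 1`. -/
theorem twist_dilog (hB : B.transpose = -B) (s : Fin r → ℤ) {c : Fin r →₀ ℕ} (hc : c ≠ 0)
    (hs : wt s c = 1) : twist s (dilog B c) = (1 + v • mono c) * dilog B c := by
  rw [one_add_mul_dilog hB hc, dilog_eq_line, twist_line s hc]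
  exact line_congr c fun m => by rw [hs, mul_one]

/-- `(1 + v x^c) Ψ(x^c) x^a = x^a Ψ(x^c)` if `ω(a, c) = 1`. -/
theorem near_rel (hB : B.transpose = -B) {a c : Fin r →₀ ℕ} (hc : c ≠ 0)
    (h : omega B (toZ a) (toZ c) = 1) :
    (1 + v • mono c) * dilog B c * (mono a : QSeries B) = mono a * dilog B c := by
  rw [one_add_mul_dilog hB hc, dilog_eq_line, mono_mul_line_comm hB hc]
  congr 1
  exact line_congr c fun m => by rw [h, mul_one]

/-- `x^a Ψ(x^c) = Ψ(x^c) x^a` if `ω(a, c) = 0`. -/
theorem far_rel (hB : B.transpose = -B) {a c : Fin r →₀ ℕ} (hc : c ≠ 0)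
    (h : omega B (toZ a) (toZ c) = 0) :
    (mono a : QSeries B) * dilog B c = dilog B c * mono a := by
  rw [dilog_eq_line, mono_mul_line_comm hB hc]
  congr 1
  exact line_congr c fun m => by rw [h]; simp

/-! ### The product over the vertices of `P_{N,k}` -/

theorem prod_ofFn {M : Type*} [Ring M] (P : ℕ → M) (n : ℕ) :
    (List.ofFn fun a : Fin n => P a).prod = DilogAlg.Apr P n := by
  induction n with
  | zero => simp [DilogAlg.Apr]
  | succ n ih =>
    rw [List.ofFn_succ', List.concat_eq_append, List.prod_append, List.prod_singleton]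
    simp only [Fin.val_castSucc, Fin.val_last, DilogAlg.Apr]
    rw [ih]

/-- The exponent `ε_{a+1}` for `a : ℕ`. -/
def ev (N a : ℕ) : Fin N →₀ ℕ := epsExp fun b => if (b : ℕ) = a then 1 else 0

theorem ev_eq {N : ℕ} (a : Fin N) : ev N a = epsSet {a} := by
  unfold ev epsSet
  congr 1
  funext b
  simp [Fin.ext_iff]

theorem ev_ne {N a : ℕ} (h : a < N) : ev N a ≠ 0 := by
  intro h0
  have h1 := DFunLike.congr_fun h0 (⟨a, h⟩ : Fin N)
  rw [ev, epsExp_apply] at h1
  have : (1 : ℕ) ≤ ∑ b ∈ univ.filter (fun b : Fin N => (⟨a, h⟩ : Fin N) ≤ b),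
      if (b : ℕ) = a then 1 else 0 := by
    refine le_trans ?_ (Finset.single_le_sum (f := fun b : Fin N => if (b : ℕ) = a then 1 else 0)
      (fun _ _ => Nat.zero_le _) (show (⟨a, h⟩ : Fin N) ∈ _ from by simp))
    simp
  simp only [Finsupp.coe_zero, Pi.zero_apply] at h1
  omega

theorem omega_ev {N a b : ℕ} (k : ℕ) (ha : a < N) (hb : b < N) :
    omega (extB N k) (toZ (ev N a)) (toZ (ev N b)) = wE k (a + 1) (b + 1) := by
  have h1 := ev_eq (⟨a, ha⟩ : Fin N)
  have h2 := ev_eq (⟨b, hb⟩ : Fin N)
  simp only at h1 h2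
  rw [h1, h2, omega_epsSet]
  simp

theorem extB_skew (N k : ℕ) : (extB N k).transpose = -(extB N k) := by
  have hw : ∀ a b, wE k a b = - wE k b a := by
    intro a b
    unfold wE
    split_ifs <;> omega
  funext i j
  simp only [Matrix.transpose_apply, Matrix.neg_apply, extB]
  rw [hw (j + 1) (i + 1), hw j (i + 1), hw (j + 1) i, hw j i]
  ring

/-- The linear form `γ ↦ γ_0`. -/
def sz (N : ℕ) : Fin N → ℤ := fun i => if (i : ℕ) = 0 then 1 else 0

theorem wt_sz_ev {N a : ℕ} (h : a < N) : wt (sz N) (ev N a) = 1 := by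
  have hN : 0 < N := by omega
  unfold wt sz
  rw [Finset.sum_eq_single (⟨0, hN⟩ : Fin N)]
  · rw [ev, epsExp_apply]
    rw [Finset.sum_eq_single (⟨a, h⟩ : Fin N)]
    · simp
    · intro b _ hb
      rw [if_neg]
      intro h'
      exact hb (Fin.ext h')
    · intro h'
      exfalso; apply h'
      simp [Fin.le_def]
  · intro b _ hb
    rw [if_neg, mul_zero]
    intro h'
    exact hb (Fin.ext h')
  · intro h'; exact absurd (mem_univ _) h'

open Classical in
/-- `∑ v^{|I|} x^{ε_I}` over the stable sets `I ⊂ {0, …, c-1}`. -/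
def Ein (N k c : ℕ) : QSeries (extB N k) :=
  ∑ I ∈ (univ : Finset (Finset (Fin N))).filter (fun I => Stable k I ∧ ∀ b ∈ I, (b : ℕ) < c),
    v ^ I.card • mono (epsSet I)

theorem epsSet_empty {N : ℕ} : epsSet (∅ : Finset (Fin N)) = 0 := by
  rw [← epsExp_zero (N := N)]
  unfold epsSet
  congr 1

theorem mono_zero {r : ℕ} {B : Matrix (Fin r) (Fin r) ℤ} : (mono 0 : QSeries B) = 1 := rfl

theorem Ein_zero (N k : ℕ) : Ein N k 0 = 1 := by
  classical
  unfold Ein
  rw [Finset.sum_eq_single (∅ : Finset (Fin N))]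
  · rw [epsSet_empty, mono_zero]; simp
  · intro I hI hne
    exfalso
    rw [mem_filter] at hI
    obtain ⟨b, hb⟩ := Finset.nonempty_iff_ne_empty.mpr hne
    exact absurd (hI.2.2 b hb) (by omega)
  · intro h'
    exfalso; apply h'
    simp [Stable]

theorem epsSet_insert {N : ℕ} {I : Finset (Fin N)} {c : Fin N} (h : c ∉ I) :
    epsSet (insert c I) = epsSet I + epsSet {c} := by
  unfold epsSet
  rw [← epsExp_add]
  congr 1
  funext b
  by_cases hb : b = c
  · subst hb; simp [h]
  · simp [hb]

theorem Ein_succ (N k c : ℕ) (hc : c < N) :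
    Ein N k (c + 1) = Ein N k c + Ein N k (c - k) * (v • mono (ev N c)) := by
  classical
  set cc : Fin N := ⟨c, hc⟩ with hcc
  have hev : ev N c = epsSet {cc} := ev_eq cc
  unfold Ein
  rw [← Finset.sum_filter_add_sum_filter_not
    ((univ : Finset (Finset (Fin N))).filter (fun I => Stable k I ∧ ∀ b ∈ I, (b : ℕ) < c + 1))
    (fun I => cc ∉ I)]
  congr 1
  · refine Finset.sum_congr ?_ fun _ _ => rfl
    ext I
    simp only [mem_filter, mem_univ, true_and]
    constructor
    · rintro ⟨⟨h1, h2⟩, h3⟩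
      refine ⟨h1, fun b hb => ?_⟩
      have := h2 b hb
      rcases Nat.lt_succ_iff_lt_or_eq.mp this with h | h
      · exact h
      · exfalso; apply h3
        have : b = cc := Fin.ext h
        rwa [← this]
    · rintro ⟨h1, h2⟩
      refine ⟨⟨h1, fun b hb => by have := h2 b hb; omega⟩, fun h => ?_⟩
      have := h2 cc h
      simp [hcc] at this
  · rw [Finset.sum_mul]
    refine Finset.sum_bij' (fun I _ => I.erase cc) (fun I _ => insert cc I) ?_ ?_ ?_ ?_ ?_
    · intro I hI
      simp only [mem_filter, mem_univ, true_and, not_not] at hI ⊢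
      obtain ⟨⟨h1, h2⟩, h3⟩ := hI
      refine ⟨fun a ha b hb hab => h1 a (mem_of_mem_erase ha) b (mem_of_mem_erase hb) hab,
        fun b hb => ?_⟩
      have hb1 := mem_of_mem_erase hb
      have hb2 := ne_of_mem_erase hb
      have hb3 := h2 b hb1
      have hb4 : (b : ℕ) ≠ c := fun h => hb2 (Fin.ext h)
      have := h1 b hb1 cc h3 (by rw [Fin.lt_def]; simp only [hcc]; omega)
      simp only [hcc] at this
      omega
    · intro I hI
      simp only [mem_filter, mem_univ, true_and, not_not] at hI ⊢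
      obtain ⟨h1, h2⟩ := hI
      refine ⟨⟨?_, ?_⟩, mem_insert_self _ _⟩
      · intro a ha b hb hab
        rw [mem_insert] at ha hb
        rcases ha with rfl | ha
        · rcases hb with rfl | hb
          · exact absurd hab (lt_irrefl _)
          · have := h2 b hb
            rw [Fin.lt_def] at hab
            simp only [hcc] at hab
            omega
        · rcases hb with rfl | hb
          · have := h2 a ha
            simp only [hcc]
            omega
          · exact h1 a ha b hb hab
      · intro b hb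
        rw [mem_insert] at hb
        rcases hb with rfl | hb
        · simp [hcc]
        · have := h2 b hb; omega
    · intro I hI
      simp only [mem_filter, mem_univ, true_and, not_not] at hI
      exact insert_erase hI.2
    · intro I hI
      simp only [mem_filter, mem_univ, true_and] at hI
      refine erase_insert fun h => ?_
      have := hI.2 cc h
      simp only [hcc] at this
      omega
    · intro I hI
      simp only [mem_filter, mem_univ, true_and, not_not] at hI
      obtain ⟨⟨h1, h2⟩, h3⟩ := hI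
      have hI' : I = insert cc (I.erase cc) := (insert_erase h3).symm
      have hn : cc ∉ I.erase cc := by simp
      set J := I.erase cc with hJ
      have hom : omega (extB N k) (toZ (epsSet J)) (toZ (epsSet {cc})) = 0 := by
        rw [omega_epsSet]
        refine Finset.sum_eq_zero fun a ha => ?_
        rw [Finset.sum_singleton]
        have ha1 : a ∈ I := mem_of_mem_erase ha
        have ha2 : a ≠ cc := ne_of_mem_erase ha
        have ha3 := h2 a ha1
        have ha4 : (a : ℕ) ≠ c := fun h => ha2 (Fin.ext h)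
        have ha5 := h1 a ha1 cc h3 (by rw [Fin.lt_def]; simp only [hcc]; omega)
        simp only [hcc] at ha5 ⊢
        unfold wE
        split_ifs <;> omega
      rw [hev, smul_mul_q, mul_smul_q, mono_mul_mono', hom, ← epsSet_insert hn, ← hI']
      have hcard : I.card = J.card + 1 := by
        rw [hI', card_insert_of_notMem hn]
      rw [hcard, pow_succ]
      simp only [zpow_zero, one_smul, smul_smul]

theorem epsSet_injective {N : ℕ} : Function.Injective (epsSet (N := N)) := by
  intro I J h
  have := epsExp_injective h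
  ext a
  have h1 := congrFun this a
  by_cases ha : a ∈ I <;> by_cases hb : a ∈ J <;> simp_all

theorem Ein_eq_Eser (N k : ℕ) : Ein N k N = Eser N k 1 := by
  classical
  funext γ
  unfold Ein Eser
  rw [QSeries.sum_apply, Finset.sum_filter]
  refine Finset.sum_congr rfl fun I _ => ?_
  by_cases h1 : Stable k I
  · rw [if_pos ⟨h1, fun b _ => b.2⟩]
    change v ^ I.card * (if γ = epsSet I then (1 : K) else 0) = _
    by_cases h2 : epsSet I = γ
    · rw [if_pos h2.symm, if_pos ⟨h1, h2⟩, mul_one, one_mul, zpow_natCast]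
    · rw [if_neg (fun h => h2 h.symm), if_neg (fun h => h2 h.2), mul_zero]
  · rw [if_neg (fun h => h1 h.1), if_neg (fun h => h1 h.1)]

end Dil


namespace Dil

theorem Aprod_eq (N k : ℕ) :
    Aprod N k = DilogAlg.Apr (fun a => dilog (extB N k) (ev N a)) N := by
  have h := prod_ofFn (fun a => dilog (extB N k) (ev N a)) N
  rw [← h, Aprod, List.prod_eq_foldr]
  congr 2
  funext a
  rw [ev_eq]

theorem twist_Apr {N k : ℕ} (s : Fin N → ℤ) (P : ℕ → QSeries (extB N k)) (n : ℕ) :
    twist s (DilogAlg.Apr P n) = DilogAlg.Apr (fun i => twist s (P i)) n := by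
  induction n with
  | zero => simp only [DilogAlg.Apr]; exact twist_one s
  | succ n ih => simp only [DilogAlg.Apr]; rw [twist_mul, ih]

theorem Apr_congr {R : Type*} [Ring R] {P Q : ℕ → R} {n : ℕ} (h : ∀ i, i < n → P i = Q i) :
    DilogAlg.Apr P n = DilogAlg.Apr Q n := by
  induction n with
  | zero => rfl
  | succ n ih =>
    simp only [DilogAlg.Apr]
    rw [ih fun i hi => h i (by omega), h n (by omega)]

theorem dilogData (N k : ℕ) : DilogAlg.Data N k (fun a => dilog (extB N k) (ev N a)) (Ein N k)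
    (fun a => v • mono (ev N a)) where
  far := by
    intro c a h1 h2
    have h0 : omega (extB N k) (toZ (ev N a)) (toZ (ev N c)) = 0 := by
      rw [omega_ev k h2 (by omega)]
      unfold wE
      split_ifs <;> omega
    change _ * _ = _ * _
    rw [smul_mul_q, mul_smul_q, far_rel (extB_skew N k) (ev_ne (by omega)) h0]
  near := by
    intro c a h1 h2 h3
    have h0 : omega (extB N k) (toZ (ev N a)) (toZ (ev N c)) = 1 := by
      rw [omega_ev k h3 (by omega)]
      rw [wE, if_neg (by omega), if_pos (by omega)]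
    rw [mul_smul_q, smul_mul_q, near_rel (extB_skew N k) (ev_ne (by omega)) h0]
  zero := Ein_zero N k
  succ := fun c hc => Ein_succ N k c hc

end Dil

open Dil in
/-- `A(v² y_0) = E(v) A`. -/
theorem Aprod_twist_sz (N k : ℕ) :
    twist (sz N) (Aprod N k) = Eser N k 1 * Aprod N k := by
  rw [Aprod_eq, twist_Apr, ← Ein_eq_Eser, ← DilogAlg.main (dilogData N k) N le_rfl]
  refine Apr_congr fun i hi => ?_
  exact twist_dilog (extB_skew N k) (sz N) (ev_ne hi) (wt_sz_ev hi)

open Dil in
theorem sz_eq_single {N : ℕ} (hN : 0 < N) : sz N = Pi.single ⟨0, hN⟩ 1 := by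
  funext i
  unfold sz
  by_cases h : i = ⟨0, hN⟩
  · subst h; simp
  · rw [Pi.single_eq_of_ne h, if_neg]
    intro h'
    exact h (Fin.ext h')

open Dil in
theorem sz_eq_single_zero (N : ℕ) [NeZero N] : sz N = Pi.single (0 : Fin N) 1 := by
  funext i
  unfold sz
  by_cases h : i = 0
  · subst h; simp
  · rw [Pi.single_eq_of_ne h, if_neg]
    intro h'
    exact h (Fin.ext (by simpa using h'))

/-- `A(v² y_0) = E(v) A`. -/
theorem Aprod_twist (N k : ℕ) [NeZero N] :
    twist (Pi.single (0 : Fin N) 1) (Aprod N k) = Eser N k 1 * Aprod N k := by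
  rw [← sz_eq_single_zero]
  exact Aprod_twist_sz N k

end

end Vale.Agent.P066.Theta
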