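import Vale.Agent.P066.Theta.Uncond
import Vale.Agent.P066.Theta.H615.Fact
import Vale.Agent.P066.Theta.Dilog

/-!
# The face property of a cluster element (U6)

`IsCluster B g → g (single j m) = psi m`.

The logarithmic derivative of the quantum dilogarithm, and the fact that it determines it.
-/

set_option autoImplicit false

open Finset

namespace Vale.Agent.P066.Theta

open Dil (v_ne pow_sub_one_ne psi_zero psi_succ omega_smul_left omega_smul_right)

noncomputable section

namespace Face

/-! ### the logarithmic derivative of `Ψ` -/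

/-- `n *` the `n`-th coefficient of `log Ψ`. -/
def psiLog (n : ℕ) : K := if n = 0 then 0 else (-1) ^ (n - 1) / (v ^ n - (v ^ n)⁻¹)

@[simp] theorem psiLog_zero : psiLog 0 = 0 := by simp [psiLog]

theorem v_pow_ne (n : ℕ) : (v ^ n : K) ≠ 0 := pow_ne_zero _ v_ne

theorem v_pow_sub_ne {n : ℕ} (hn : n ≠ 0) : (v ^ n * v ^ n - 1 : K) ≠ 0 := by
  obtain ⟨m, rfl⟩ := Nat.exists_eq_succ_of_ne_zero hn
  have h := pow_sub_one_ne m
  rwa [mul_comm, pow_mul, sq] at h

/-- `(v^{2n} - 1) L_n = (-1)^{n-1} v^n` for `n ≥ 1`. -/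
theorem psiLog_rec {n : ℕ} (hn : n ≠ 0) :
    (v ^ n * v ^ n) * psiLog n = psiLog n + (-1) ^ (n - 1) * v ^ n := by
  have h1 := v_pow_ne n
  have h2 := v_pow_sub_ne hn
  unfold psiLog
  rw [if_neg hn]
  have h3 : v ^ n - (v ^ n)⁻¹ = (v ^ n * v ^ n - 1) / v ^ n := by
    field_simp
  rw [h3]
  have h4 : (-1 : K) ^ (n - 1) / ((v ^ n * v ^ n - 1) / v ^ n) =
      (-1) ^ (n - 1) * v ^ n / (v ^ n * v ^ n - 1) := by
    rw [div_div_eq_mul_div]
  rw [h4, ← mul_div_assoc, eq_comm, ← sub_eq_zero]
  have h5 : (-1 : K) ^ (n - 1) * v ^ n / (v ^ n * v ^ n - 1) * (v ^ n * v ^ n - 1) =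
      (-1) ^ (n - 1) * v ^ n := div_mul_cancel₀ _ h2
  rw [mul_div_assoc]
  linear_combination - h5

/-- `v^{2n} ψ_n = ψ_n + v ψ_{n-1}`. -/
theorem psi_rec' (n : ℕ) : (v ^ (n + 1) * v ^ (n + 1)) * psi (n + 1) = psi (n + 1) + v * psi n := by
  have h2 := v_pow_sub_ne (Nat.succ_ne_zero n)
  have h3 : v ^ (2 * (n + 1)) = v ^ (n + 1) * v ^ (n + 1) := by
    rw [mul_comm, pow_mul, sq]
  have h5 : v / (v ^ (n + 1) * v ^ (n + 1) - 1) * (v ^ (n + 1) * v ^ (n + 1) - 1) = v :=
    div_mul_cancel₀ _ h2
  rw [psi_succ, h3]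
  linear_combination psi n * h5

/-- A sequence with `u 0 = 0` and `v^{2(n+1)} u (n+1) = u (n+1) + v u n` vanishes. -/
theorem eq_zero_of_rec {u : ℕ → K} (h0 : u 0 = 0)
    (h : ∀ n, (v ^ (n + 1) * v ^ (n + 1)) * u (n + 1) = u (n + 1) + v * u n) (n : ℕ) : u n = 0 := by
  induction n with
  | zero => exact h0
  | succ n ih =>
    have h1 := h n
    rw [ih, mul_zero, add_zero] at h1
    have h2 : (v ^ (n + 1) * v ^ (n + 1) - 1) * u (n + 1) = 0 := by
      rw [sub_mul, h1, one_mul, sub_self]
    exact (mul_eq_zero.1 h2).resolve_left (v_pow_sub_ne (Nat.succ_ne_zero n))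

open PowerSeries in
/-- `Ψ * L = T Ψ'`. -/
theorem psi_logDeriv_series : (PowerSeries.mk psi) * (PowerSeries.mk psiLog) =
    PowerSeries.mk fun n => (n : K) * psi n := by
  set P : PowerSeries K := PowerSeries.mk psi with hP
  set L : PowerSeries K := PowerSeries.mk psiLog with hL
  set E : PowerSeries K := PowerSeries.mk fun n => (n : K) * psi n with hE
  set w : K := v * v with hw
  have hpow : ∀ n : ℕ, w ^ n = v ^ n * v ^ n := fun n => mul_pow _ _ _
  -- the functional equations
  have f1 : rescale w P = (1 + C v * X) * P := by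
    ext n
    rw [coeff_rescale, add_mul, one_mul, map_add, mul_assoc, coeff_C_mul]
    cases n with
    | zero => simp
    | succ n =>
      rw [coeff_succ_X_mul, hP, coeff_mk, coeff_mk, hpow]
      exact psi_rec' n
  have f2 : (1 + C v * X) * rescale w L = (1 + C v * X) * L + C v * X := by
    have f3 : rescale w L = L + PowerSeries.mk fun n => if n = 0 then 0 else (-1) ^ (n - 1) * v ^ n := by
      ext n
      rw [coeff_rescale, map_add, hL, coeff_mk, coeff_mk, hpow]
      by_cases hn : n = 0
      · simp [hn]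
      · rw [if_neg hn]
        exact psiLog_rec hn
    rw [f3, mul_add]
    congr 1
    ext n
    rw [add_mul, one_mul, map_add, mul_assoc, coeff_C_mul, coeff_mk, coeff_C_mul]
    cases n with
    | zero => simp
    | succ n =>
      rw [coeff_succ_X_mul, coeff_mk, if_neg (Nat.succ_ne_zero n), coeff_X]
      cases n with
      | zero => simp
      | succ n =>
        rw [if_neg (Nat.succ_ne_zero n), if_neg (by omega)]
        simp only [Nat.add_sub_cancel]
        ring
  have f4 : rescale w E = (1 + C v * X) * E + C v * X * P := by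
    ext n
    rw [coeff_rescale, add_mul, one_mul, map_add, map_add, mul_assoc, coeff_C_mul, mul_assoc,
      coeff_C_mul]
    cases n with
    | zero => simp [hE]
    | succ n =>
      rw [coeff_succ_X_mul, coeff_succ_X_mul, hE, hP, coeff_mk, coeff_mk, coeff_mk, hpow]
      have h := psi_rec' n
      push_cast
      linear_combination ((n : K) + 1) * h
  have f5 : rescale w (P * L - E) = (1 + C v * X) * (P * L - E) := by
    rw [map_sub, map_mul, f1, f4]
    linear_combination P * f2
  have f6 : ∀ n, coeff n (P * L - E) = 0 := by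
    apply eq_zero_of_rec
    · simp [hP, hL, hE, psi_zero]
    · intro n
      have h := congrArg (coeff (n + 1)) f5
      rw [coeff_rescale, hpow, add_mul, one_mul, map_add, mul_assoc (C v), coeff_C_mul,
        coeff_succ_X_mul] at h
      exact h
  have f7 : P * L - E = 0 := by
    ext n
    rw [f6 n, map_zero]
  exact sub_eq_zero.1 f7

/-- `∑_{a+b=n} ψ_a L_b = n ψ_n`. -/
theorem psi_logDeriv (n : ℕ) :
    ∑ p ∈ antidiagonal n, psi p.1 * psiLog p.2 = (n : K) * psi n := by
  have h := congrArg (PowerSeries.coeff n) psi_logDeriv_series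
  rw [PowerSeries.coeff_mul, PowerSeries.coeff_mk] at h
  simpa only [PowerSeries.coeff_mk] using h

/-- A series with constant term `1` is determined by its logarithmic derivative. -/
theorem eq_of_logDeriv {f f' L : ℕ → K} {D : ℕ} (h0 : f 0 = 1) (h0' : f' 0 = 1) (hL : L 0 = 0)
    (h : ∀ n, n ≤ D → ∑ p ∈ antidiagonal n, f p.1 * L p.2 = (n : K) * f n)
    (h' : ∀ n, n ≤ D → ∑ p ∈ antidiagonal n, f' p.1 * L p.2 = (n : K) * f' n) :
    ∀ n, n ≤ D → f n = f' n := by
  intro n
  induction n using Nat.strong_induction_on with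
  | _ n ih =>
    intro hn
    rcases Nat.eq_zero_or_pos n with rfl | hpos
    · rw [h0, h0']
    have e : ∑ p ∈ antidiagonal n, f p.1 * L p.2 = ∑ p ∈ antidiagonal n, f' p.1 * L p.2 := by
      refine sum_congr rfl fun p hp => ?_
      rw [HasAntidiagonal.mem_antidiagonal] at hp
      by_cases h2 : p.2 = 0
      · rw [h2, hL, mul_zero, mul_zero]
      · rw [ih p.1 (by omega) (by omega)]
    rw [h n hn, h' n hn] at e
    have hn0 : (n : K) ≠ 0 := by
      exact_mod_cast hpos.ne'
    exact mul_left_cancel₀ hn0 e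

/-- A series whose logarithmic derivative is the one of `Ψ` is `Ψ`. -/
theorem eq_psi_of_logDeriv {f : ℕ → K} {D : ℕ} (h0 : f 0 = 1)
    (h : ∀ n, n ≤ D → ∑ p ∈ antidiagonal n, f p.1 * psiLog p.2 = (n : K) * f n) :
    ∀ n, n ≤ D → f n = psi n :=
  eq_of_logDeriv h0 psi_zero psiLog_zero h fun n _ => psi_logDeriv n

/-- A series with vanishing logarithmic derivative is `1`. -/
theorem eq_one_of_logDeriv {f : ℕ → K} {D : ℕ} 
    (h : ∀ n, n ≤ D → (0 : K) = (n : K) * f n) :
    ∀ n, n ≤ D → n ≠ 0 → f n = 0 := by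
  intro n hn hn0
  have h1 := (h n hn).symm
  exact (mul_eq_zero.1 h1).resolve_left (by exact_mod_cast hn0)

theorem clusterData_single {r : ℕ} (j : Fin r) {m : ℕ} (hm : m ≠ 0) :
    clusterData (Finsupp.single j m) = psiLog m := by
  unfold clusterData psiLog
  have hd : deg (Finsupp.single j m) = m := by
    unfold deg
    rw [sum_eq_single j]
    · simp
    · intro i _ hi
      rw [Finsupp.single_apply, if_neg (Ne.symm hi)]
    · intro h
      exact absurd (mem_univ j) h
  rw [if_pos ⟨j, by simp⟩, if_neg hm, hd]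

/-! ### restriction to a ray -/

variable {r : ℕ} {B : Matrix (Fin r) (Fin r) ℤ}

open QSeries

theorem omega_single_single (hB : B.transpose = -B) (j : Fin r) (a b : ℕ) :
    omega B (toZ (Finsupp.single j a)) (toZ (Finsupp.single j b)) = 0 := by
  have h1 : (Finsupp.single j a : Fin r →₀ ℕ) = a • Finsupp.single j 1 := by simp
  have h2 : (Finsupp.single j b : Fin r →₀ ℕ) = b • Finsupp.single j 1 := by simp
  rw [h1, h2, omega_smul_left, omega_smul_right, omega_self hB]
  simp

/-- The product restricted to the ray of `y_j`. -/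
theorem mul_single (hB : B.transpose = -B) (F G : QSeries B) (j : Fin r) (n : ℕ) :
    (F * G) (Finsupp.single j n) =
      ∑ p ∈ antidiagonal n, F (Finsupp.single j p.1) * G (Finsupp.single j p.2) := by
  rw [mul_apply, Finsupp.antidiagonal_single, sum_map]
  refine sum_congr rfl fun p _ => ?_
  show v ^ omega B (toZ (Finsupp.single j p.1)) (toZ (Finsupp.single j p.2)) *
    F (Finsupp.single j p.1) * G (Finsupp.single j p.2) = _
  rw [omega_single_single hB, zpow_zero, one_mul]

/-- Existence of the triple factorization. -/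
theorem exists_isTriple' {g : QSeries B} (h0 : g 0 = 1) (Q : Fin r → ℤ) :
    ∃ gp g0 gm, IsTriple g gp g0 gm Q := by
  obtain ⟨gp, gl, h1, h2, h3, h4, h5⟩ := exists_factor (pos_le_disj Q) (pos_or_le Q) g h0
  -- second factorization: `{Q ≥ 0}` and `{Q < 0}`
  have hP : ∀ γ : Fin r →₀ ℕ, γ ∈ leSub (-Q) → γ ∈ posSub (-Q) → γ = 0 := fun γ a b =>
    pos_le_disj (-Q) γ b a
  have hU : ∀ γ : Fin r →₀ ℕ, γ ∈ leSub (-Q) ∨ γ ∈ posSub (-Q) := fun γ => (pos_or_le (-Q) γ).symm
  obtain ⟨g0, gm, k1, k2, k3, k4, k5⟩ := exists_factor hP hU gl h2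
  have hneg : ∀ γ : Fin r →₀ ℕ, wt (-Q) γ = - wt Q γ := by
    intro γ
    simp [wt]
  have hgm : ∀ γ, γ ≠ 0 → gm γ ≠ 0 → wt Q γ < 0 := by
    intro γ hγ h
    have := (mem_posSub.1 (k4 γ h)).resolve_left hγ
    rw [hneg] at this
    omega
  -- `g0` is supported on `{Q ≤ 0}` too
  have hg0 : g0 ∈ supp (B := B) (leSub Q) := by
    have hgm' : gm ∈ supp (B := B) (leSub Q) := by
      intro γ h
      by_cases hγ : γ = 0
      · subst hγ
        simp
      · exact (hgm γ hγ h).le
    have hu : IsUnit gm := isUnit_of_one k2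
    have : g0 = gl * Ring.inverse gm := by
      rw [k5, mul_assoc, Ring.mul_inverse_cancel _ hu, mul_one]
    rw [this]
    exact mul_mem h4 (inverse_mem_supp hgm' (by rw [k2]; exact one_ne_zero))
  refine ⟨gp, g0, gm, ?_⟩
  refine ⟨h1, ?_, k1, ?_, k2, hgm, ?_⟩
  · intro γ hγ h
    exact (mem_posSub.1 (h3 γ h)).resolve_left hγ
  · intro γ h
    have a := mem_leSub.1 (hg0 γ h)
    have b := mem_leSub.1 (k3 γ h)
    rw [hneg] at b
    omega
  · rw [h5, k5, mul_assoc]

end Face

variable {r : ℕ} {B : Matrix (Fin r) (Fin r) ℤ}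

open Face QSeries in
/-- **U6.** On the ray of `y_j` a cluster element is the quantum dilogarithm. -/
theorem cluster_face (hB : B.transpose = -B) {g : QSeries B} (hg : IsCluster B g) (j : Fin r)
    (m : ℕ) : g (Finsupp.single j m) = psi m := by
  obtain ⟨h0, hg⟩ := hg
  have hchart : ∀ n : ℕ, chartAt B 0 (Finsupp.single j n) =
      fun i => (n : ℤ) * chartAt B 0 (Finsupp.single j 1) i := by
    intro n
    funext i
    simp only [chartAt, Pi.zero_apply, zero_add]
    rw [sum_eq_single j, sum_eq_single j]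
    · simp
      ring
    · intro k _ hk
      simp [Ne.symm hk]
    · intro h
      exact absurd (mem_univ j) h
    · intro k _ hk
      simp [Ne.symm hk]
    · intro h
      exact absurd (mem_univ j) h
  set Q := chartAt B 0 (Finsupp.single j 1) with hQ
  have hwt : ∀ (n : ℕ) (γ : Fin r →₀ ℕ), wt (fun i => (n : ℤ) * Q i) γ = (n : ℤ) * wt Q γ := by
    intro n γ
    simp only [wt, Finset.mul_sum]
    refine sum_congr rfl fun i _ => ?_
    ring
  have hray : ∀ n : ℕ, wt Q (Finsupp.single j n) = 0 := by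
    intro n
    have h1 : ∀ (x : Fin r →₀ ℕ), wt Q x = omega B (toZ x) (toZ (Finsupp.single j 1)) := by
      intro x
      simp only [hQ, wt, omega, chartAt, Pi.zero_apply, zero_add, Finset.mul_sum, toZ]
      refine sum_congr rfl fun i _ => sum_congr rfl fun k _ => ?_
      ring
    rw [h1, omega_single_single hB]
  obtain ⟨gp, g0, gm, ht⟩ := exists_isTriple' h0 Q
  have hu : IsUnit g0 := isUnit_of_one ht.g0_zero
  set L := Ring.inverse g0 * euler g0 with hL
  have hgL : g0 * L = euler g0 := by
    rw [hL, ← mul_assoc, Ring.mul_inverse_cancel _ hu, one_mul]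
  -- the triple for `n Q`
  have htn : ∀ n : ℕ, n ≠ 0 → IsTriple g gp g0 gm (chartAt B 0 (Finsupp.single j n)) := by
    intro n hn
    have hn' : (0 : ℤ) < n := by exact_mod_cast Nat.pos_of_ne_zero hn
    rw [hchart n]
    refine ⟨ht.gp_zero, ?_, ht.g0_zero, ?_, ht.gm_zero, ?_, ht.eq⟩
    · intro γ hγ h
      rw [hwt]
      exact mul_pos hn' (ht.gp_supp γ hγ h)
    · intro γ h
      rw [hwt, ht.g0_supp γ h, mul_zero]
    · intro γ hγ h
      rw [hwt]
      exact mul_neg_of_pos_of_neg hn' (ht.gm_supp γ hγ h)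
  have hL0 : L 0 = 0 := by
    have := congrFun hgL 0
    rw [mul_zero_apply, ht.g0_zero, one_mul] at this
    rw [this]
    simp [euler, deg]
  have hLn : ∀ n : ℕ, L (Finsupp.single j n) = psiLog n := by
    intro n
    by_cases hn : n = 0
    · subst hn
      rw [psiLog_zero, Finsupp.single_zero]
      exact hL0
    · rw [← clusterData_single j hn]
      exact hg _ (by simpa using hn) gp g0 gm L (htn n hn) hgL
  have hdeg : ∀ n : ℕ, deg (Finsupp.single j n : Fin r →₀ ℕ) = n := by
    intro n
    unfold deg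
    rw [sum_eq_single j]
    · simp
    · intro i _ hi
      rw [Finsupp.single_apply, if_neg (Ne.symm hi)]
    · intro h
      exact absurd (mem_univ j) h
  have h1 : ∀ n : ℕ, g0 (Finsupp.single j n) = psi n := by
    intro n
    refine eq_psi_of_logDeriv (f := fun n => g0 (Finsupp.single j n)) (D := n) ?_ ?_ n le_rfl
    · show g0 (Finsupp.single j 0) = 1
      rw [Finsupp.single_zero]
      exact ht.g0_zero
    · intro k _
      have := congrFun hgL (Finsupp.single j k)
      rw [mul_single hB] at this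
      simp only [hLn] at this
      rw [this]
      simp only [euler, hdeg]
  -- `gp` and `gm` are trivial on the ray
  have h2 : ∀ n : ℕ, n ≠ 0 → gp (Finsupp.single j n) = 0 := by
    intro n hn
    by_contra hc
    have := ht.gp_supp _ (by simpa using hn) hc
    rw [hray] at this
    exact lt_irrefl _ this
  have h3 : ∀ n : ℕ, n ≠ 0 → gm (Finsupp.single j n) = 0 := by
    intro n hn
    by_contra hc
    have := ht.gm_supp _ (by simpa using hn) hc
    rw [hray] at this
    exact lt_irrefl _ this
  rw [ht.eq, mul_single hB, sum_eq_single (m, 0)]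
  · simp only [Finsupp.single_zero, ht.gm_zero, mul_one]
    rw [mul_single hB, sum_eq_single (0, m)]
    · simp only [Finsupp.single_zero, ht.gp_zero, one_mul]
      exact h1 m
    · rintro ⟨a, b⟩ hab hne
      rw [HasAntidiagonal.mem_antidiagonal] at hab
      have : a ≠ 0 := by
        rintro rfl
        apply hne
        simp at hab
        rw [hab]
      simp only [h2 a this, zero_mul]
    · intro h
      simp at h
  · rintro ⟨a, b⟩ hab hne
    rw [HasAntidiagonal.mem_antidiagonal] at hab
    have : b ≠ 0 := by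
      rintro rfl
      apply hne
      simp at hab
      rw [hab]
    simp only [h3 b this, mul_zero]
  · intro h
    simp at h

end

end Vale.Agent.P066.Theta
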