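import Vale.Agent.P066.Theta.Good
import Vale.Agent.P066.Theta.ClusterAttr
import Vale.Agent.P066.Theta.Face

/-!
# The element of the extended seed (conditional on the `N` mutations)
-/

set_option autoImplicit false

open Finset

namespace Vale.Agent.P066.Theta

/-- `U2`. -/
theorem u2Prop : U2Prop := fun _ _ hB _ hg => attrPos_of_isCluster hB hg

/-- `U6`. -/
theorem u6Prop : U6Prop := fun _ _ hB _ hg j m => cluster_face hB hg j m

/-- Assembly of `UI` from the `N` mutations. -/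
theorem exists_element_of (h5 : U5Prop) (N k : ℕ) (hN : 1 ≤ N) (hk : 1 ≤ k) :
    ∃ g : QSeries (extB N k), g 0 = 1 ∧ AttrPos g ∧
      (∃ g2 : QSeries (extB N k), (∀ b, g2 b ≠ 0 → ∀ i : Fin N, (i : ℕ) = 0 → b i = 0) ∧
        g = Aprod N k * g2) ∧
      ∀ (j : Fin N) (m : ℕ), (j : ℕ) ≠ 0 → g (Finsupp.single j m) = psi m := by
  have hB : (extB N k).transpose = -(extB N k) := Dil.extB_skew N k
  obtain ⟨g, hg⟩ := exists_isCluster hB
  exact ⟨g, hg.1, u2Prop N _ hB g hg, h5 N k hN hk g hg, fun j m _ => u6Prop N _ hB g hg j m⟩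

/-- `UI` gives the good element, with `U3`, `U4` and the local theorem. -/
theorem goodElement_of_u5 (h3 : U3Prop) (h4 : U4Prop) (h5 : U5Prop) (h7 : LocalTheorem)
    (N k : ℕ) (hN : 1 ≤ N) (hk : 1 ≤ k) : GoodElement N k :=
  goodElement_of u2Prop h3 h4 h5 u6Prop h7 N k hN hk

end Vale.Agent.P066.Theta
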