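import Mathlib

/-!
# Every Hessenberg graph is an induced subgraph of some `P_{N,k}`

`P_{N,k}`: vertices `Fin N`, `i ~ j` iff `0 < |i - j| ≤ k`.
-/

set_option autoImplicit false

open Finset

namespace Vale.Agent.P066.Theta

private theorem embed_nat (h : ℕ → ℕ) (hm : Monotone h) (n : ℕ) :
    ∃ (k : ℕ) (x : ℕ → ℕ), 1 ≤ k ∧ (∀ i j, i < j → j < n → x i < x j) ∧
      (∀ i j, i < j → j < n → (j ≤ h i ↔ x j ≤ x i + k)) := by
  induction n with
  | zero => exact ⟨1, fun i => i, le_refl 1, fun i j _ hj => absurd hj (Nat.not_lt_zero _),
      fun i j _ hj => absurd hj (Nat.not_lt_zero _)⟩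
  | succ n ih =>
    obtain ⟨k, x, hk, hx, hR⟩ := ih
    by_cases hex : ∃ a, a < n ∧ n ≤ h a
    · classical
      let a := Nat.find hex
      have ha : a < n ∧ n ≤ h a := Nat.find_spec hex
      have hamin : ∀ b, b < n → n ≤ h b → a ≤ b := fun b hb hb' => Nat.find_min' hex ⟨hb, hb'⟩
      refine ⟨2 * k + 1, fun i => if i = n then 2 * x a + 2 * k + 1 else 2 * x i, by omega,
        ?_, ?_⟩
      · intro i j hij hj
        have hi : i ≠ n := by omega
        by_cases hjn : j = n
        · simp only [if_neg hi, if_pos hjn]
          subst hjn
          rcases lt_trichotomy i a with h1 | h1 | h1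
          · have := hx i a h1 ha.1; omega
          · rw [h1]; omega
          · have h2 := (hR a i h1 hij).1 (by omega); omega
        · simp only [if_neg hi, if_neg hjn]
          have := hx i j hij (by omega); omega
      · intro i j hij hj
        have hi : i ≠ n := by omega
        by_cases hjn : j = n
        · simp only [if_neg hi, if_pos hjn]
          subst hjn
          constructor
          · intro h1
            have h2 := hamin i hij h1
            rcases Nat.lt_or_ge a i with h3 | h3
            · have := hx a i h3 hij; omega
            · have : i = a := by omega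
              rw [this]; omega
          · intro h1
            by_contra h2
            have h3 : ¬ a ≤ i := fun h4 => h2 (le_trans ha.2 (hm h4))
            have := hx i a (by omega) ha.1
            omega
        · simp only [if_neg hi, if_neg hjn]
          rw [hR i j hij (by omega)]
          omega
    · refine ⟨2 * k + 1, fun i => if i = n then 2 * ((range n).sup x) + 2 * k + 2 else 2 * x i,
        by omega, ?_, ?_⟩
      · intro i j hij hj
        have hi : i ≠ n := by omega
        by_cases hjn : j = n
        · simp only [if_neg hi, if_pos hjn]
          have : x i ≤ (range n).sup x := Finset.le_sup (f := x) (mem_range.2 (by omega))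
          omega
        · simp only [if_neg hi, if_neg hjn]
          have := hx i j hij (by omega); omega
      · intro i j hij hj
        have hi : i ≠ n := by omega
        by_cases hjn : j = n
        · simp only [if_neg hi, if_pos hjn]
          have : x i ≤ (range n).sup x := Finset.le_sup (f := x) (mem_range.2 (by omega))
          constructor
          · intro h1
            exact absurd ⟨i, by omega, by omega⟩ hex
          · intro h1; omega
        · simp only [if_neg hi, if_neg hjn]
          rw [hR i j hij (by omega)]
          omega

/-- Every Hessenberg graph (`i ~ j` iff `j ≤ h i`, for `i < j`) is an induced subgraph of a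
power of a path `P_{N,k}`, with the order of the vertices preserved. -/
theorem exists_embed {n : ℕ} (h : Fin n → Fin n) (hm : Monotone h) :
    ∃ (N k : ℕ) (phi : Fin n → Fin N), 1 ≤ k ∧ StrictMono phi ∧
      ∀ i j, i < j → (j ≤ h i ↔ (phi j : ℕ) ≤ (phi i : ℕ) + k) := by
  classical
  let h' : ℕ → ℕ := fun i => if hi : i < n then (h ⟨i, hi⟩ : ℕ) else n
  have hm' : Monotone h' := by
    intro i j hij
    simp only [h']
    by_cases hj : j < n
    · have hi : i < n := by omega
      rw [dif_pos hi, dif_pos hj]
      exact hm (show (⟨i, hi⟩ : Fin n) ≤ ⟨j, hj⟩ from hij)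
    · rw [dif_neg hj]
      by_cases hi : i < n
      · rw [dif_pos hi]; exact (h ⟨i, hi⟩).isLt.le
      · rw [dif_neg hi]
  obtain ⟨k, x, hk, hx, hR⟩ := embed_nat h' hm' n
  refine ⟨(range n).sup x + 1, k, fun i => ⟨x i, ?_⟩, hk, ?_, ?_⟩
  · have : x i ≤ (range n).sup x := Finset.le_sup (f := x) (mem_range.2 i.isLt)
    omega
  · intro i j hij
    exact hx i j hij j.isLt
  · intro i j hij
    rw [← hR i j hij j.isLt]
    simp only [h', dif_pos i.isLt]
    exact Fin.le_def

end Vale.Agent.P066.Theta
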