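import Vale.Agent.P066.Theta.Defs

/-!
# The extended seed of the graph `P_{N,k}` (`i ~ j` iff `0 < |i - j| ≤ k`)

`ε_1, …, ε_N` with `ω(ε_b, ε_a) = 1` for `a < b ≤ a + k`; `y_0 = ε_1`, `y_j = ε_{j+1} - ε_j`.
Vertices of the graph are `a : Fin N` (corresponding to `ε_{a+1}`), vertices of the quiver are
`j : Fin N` (corresponding to `y_j`).
-/

set_option autoImplicit false

open Finset

namespace Vale.Agent.P066.Theta

noncomputable section

/-- `ω(ε_a, ε_b)` (indices from `1`, and `ε_0 = 0`). -/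
def wE (k a b : ℕ) : ℤ :=
  if a = 0 ∨ b = 0 then 0
  else if b < a ∧ a ≤ b + k then 1
  else if a < b ∧ b ≤ a + k then -1
  else 0

/-- The exchange matrix `B i j = ω(y_i, y_j)`, `y_i = ε_{i+1} - ε_i`. -/
def extB (N k : ℕ) : Matrix (Fin N) (Fin N) ℤ := fun i j =>
  wE k (i + 1) (j + 1) - wE k i (j + 1) - wE k (i + 1) j + wE k i j

/-- The exponent `∑_a m_a ε_{a+1}` in the basis `y_0, …, y_{N-1}`. -/
def epsExp {N : ℕ} (m : Fin N → ℕ) : Fin N →₀ ℕ :=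
  Finsupp.equivFunOnFinite.symm fun j => ∑ a ∈ univ.filter (fun a => j ≤ a), m a

/-- The exponent `∑_{a ∈ I} ε_{a+1}`. -/
def epsSet {N : ℕ} (I : Finset (Fin N)) : Fin N →₀ ℕ := epsExp fun a => if a ∈ I then 1 else 0

/-- `I` is a stable set of `P_{N,k}`. -/
def Stable {N : ℕ} (k : ℕ) (I : Finset (Fin N)) : Prop :=
  ∀ a ∈ I, ∀ b ∈ I, a < b → (a : ℕ) + k < (b : ℕ)

/-- The monomial `x^γ`. -/
def mono {r : ℕ} {B : Matrix (Fin r) (Fin r) ℤ} (γ : Fin r →₀ ℕ) : QSeries B :=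
  fun η => if η = γ then 1 else 0

open Classical in
/-- `E_d = ∑_{I stable, |I| = d} x^{ε_I}`. -/
def Ek (N k d : ℕ) : QSeries (extB N k) := fun η =>
  if ∃ I : Finset (Fin N), Stable k I ∧ I.card = d ∧ epsSet I = η then 1 else 0

open Classical in
/-- `∑_{I stable} v^{c |I|} x^{ε_I}`. -/
def Eser (N k : ℕ) (c : ℤ) : QSeries (extB N k) := fun η =>
  ∑ I : Finset (Fin N), if Stable k I ∧ epsSet I = η then v ^ (c * (I.card : ℤ)) else 0

/-- Multiplicities `λ_l` on the greedy vertices `l (k+1)`, `0` on the other vertices. -/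
def pExp {N : ℕ} (k : ℕ) (lam : ℕ → ℕ) : Fin N → ℕ :=
  fun a => if (k + 1) ∣ (a : ℕ) then lam ((a : ℕ) / (k + 1)) else 0

/-- The exponents `p_λ`, `λ` a partition. -/
def IsC0 (N k : ℕ) (γ : Fin N →₀ ℕ) : Prop :=
  ∃ lam : ℕ → ℕ, Antitone lam ∧ γ = epsExp (pExp k lam)

/-- `ω(y_j, η)`. -/
def sAt (N k : ℕ) (j : Fin N) (η : Fin N →₀ ℕ) : ℤ := ∑ i, extB N k j i * (η i : ℤ)

/-- What the combinatorial part needs to know about the theta functions `ϑ_γ`, `γ ∈ ℕ^N`, of the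
extended seed, `ϑ_γ = x^γ + …`, and about the coefficient functionals `α_γ`. -/
structure ThetaData (N k : ℕ) where
  th : (Fin N →₀ ℕ) → QSeries (extB N k)
  al : (Fin N →₀ ℕ) → QSeries (extB N k) →ₗ[K] K
  th_self : ∀ γ, th γ γ = 1
  th_supp : ∀ γ η, th γ η ≠ 0 → γ ≤ η
  th_pos : ∀ γ η, Pos (th γ η)
  expand : ∀ h η, h η = ∑ γ ∈ Finset.Iic η, al γ h * th γ η
  al_th : ∀ γ δ, al γ (th δ) = if γ = δ then 1 else 0
  mul_pos : ∀ γ γ' δ, Pos (al δ (th γ * th γ'))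
  mul_lead : ∀ γ γ', al (γ + γ') (th γ * th γ') ≠ 0
  /-- `y_j`-strings: if `η` is the bottom exponent of `ϑ_γ` on its `y_j`-line and
  `c = ω(y_j, η) > 0`, then the exponent `η + c y_j` also occurs. -/
  string : ∀ γ η (j : Fin N), (j : ℕ) ≠ 0 → th γ η ≠ 0 →
    (∀ η', η' ≤ η → η' ≠ η → (∀ i, i ≠ j → η' i = η i) → th γ η' = 0) →
    ∀ c : ℕ, 0 < c → sAt N k j η = c → th γ (η + Finsupp.single j c) ≠ 0
  /-- the trace argument -/
  trace : ∀ γ h, (∀ η, h η ≠ 0 → 0 ≤ omega (extB N k) (toZ η) (toZ γ)) → al γ h = h γ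
  /-- `ϑ_z ϑ_{-z}` is a nonnegative combination of theta functions -/
  H_pos : ∀ γ, Pos (al γ (Eser N k (-1)))

/-- `∑_{i < j} ω(ε_{I_i}, ε_{I_j})`. -/
def famWeight {M N : ℕ} (k : ℕ) (I : Fin M → Finset (Fin N)) : ℤ :=
  ∑ i, ∑ j ∈ Finset.Ioi i, omega (extB N k) (toZ (epsSet (I i))) (toZ (epsSet (I j)))

open Classical in
/-- The coefficient of `x^η` in `∏_i E(t_i)`, a polynomial in `t_0, …, t_{M-1}`. -/
def G (N k M : ℕ) (η : Fin N →₀ ℕ) : MvPolynomial (Fin M) K :=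
  ∑ I ∈ (univ : Finset (Fin M → Finset (Fin N))).filter
      (fun I => (∀ i, Stable k (I i)) ∧ ∑ i, epsSet (I i) = η),
    MvPolynomial.C (v ^ famWeight k I) * ∏ i, MvPolynomial.X i ^ (I i).card

end

end Vale.Agent.P066.Theta
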