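import Vale.Agent.P066.Theta.FinalAlg
import Vale.Agent.P066.Theta.H403.GCount
import Vale.Agent.P066.Theta.Embed

/-!
# The final theorem from the main identity (block S9)
-/

set_option autoImplicit false

open Finset

namespace Vale.Agent.P066.Theta

noncomputable section

/-- The main identity for the graph `P_{N,k}`, with coefficients in `ℕ((v))`. -/
def MainId (N k : ℕ) : Prop :=
  ∃ th : (Fin N →₀ ℕ) → (Fin N →₀ ℕ) → K, (∀ γ η, PosL (th γ η)) ∧
    ∀ (M : ℕ) (η : Fin N →₀ ℕ), G N k M η =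
      ∑ γ ∈ by classical exact (Finset.Iic η).filter (IsC0 N k),
        MvPolynomial.C (th γ η) * G N k M γ

theorem esymm_isHomogeneous (M j : ℕ) : (MvPolynomial.esymm (Fin M) K j).IsHomogeneous j := by
  classical
  unfold MvPolynomial.esymm
  refine MvPolynomial.IsHomogeneous.sum _ _ _ fun t ht => ?_
  have h1 := MvPolynomial.IsHomogeneous.prod t
    (fun i => (MvPolynomial.X i : MvPolynomial (Fin M) K)) (fun _ => 1)
    (fun i _ => MvPolynomial.isHomogeneous_X _ _)
  rw [Finset.sum_const, smul_eq_mul, mul_one, (Finset.mem_powersetCard.1 ht).2] at h1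
  exact h1

theorem prod_esymm_isHomogeneous (M : ℕ) (S : Finset ℕ) (lam : ℕ → ℕ) :
    (∏ l ∈ S, MvPolynomial.esymm (Fin M) K (lam l)).IsHomogeneous (∑ l ∈ S, lam l) :=
  MvPolynomial.IsHomogeneous.prod S _ _ fun l _ => esymm_isHomogeneous M (lam l)

theorem chromK_isHomogeneous {n : ℕ} (h : Fin n → Fin n) (M : ℕ) :
    (chromK h M).IsHomogeneous n := by
  classical
  unfold chromK
  refine MvPolynomial.IsHomogeneous.sum _ _ _ fun f _ => ?_
  have h1 := MvPolynomial.IsHomogeneous.prod (univ : Finset (Fin n))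
    (fun a => (MvPolynomial.X (f a) : MvPolynomial (Fin M) K)) (fun _ => 1)
    (fun a _ => MvPolynomial.isHomogeneous_X _ _)
  have h2 : ∑ _a : Fin n, 1 = n := by simp
  rw [h2] at h1
  have h3 := (MvPolynomial.isHomogeneous_C (Fin M)
    (v ^ ((numEdges h : ℤ) - 2 * (asc (unitIntervalGraph h) f : ℤ)) : K)).mul h1
  rw [zero_add] at h3
  exact h3

theorem prod_esymm_eq_esymmPart {n : ℕ} (M : ℕ) (S : Finset ℕ) (lam : ℕ → ℕ)
    (hs : (S.val.map lam).sum = n) :
    (∏ l ∈ S, MvPolynomial.esymm (Fin M) K (lam l)) =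
      MvPolynomial.esymmPart (Fin M) K (Nat.Partition.ofSums n (S.val.map lam) hs) := by
  classical
  unfold MvPolynomial.esymmPart
  have h1 : (Nat.Partition.ofSums n (S.val.map lam) hs).parts =
      (S.val.map lam).filter (· ≠ 0) := rfl
  rw [h1]
  have h2 : ∀ l : Multiset ℕ, ((l.filter (· ≠ 0)).map (MvPolynomial.esymm (Fin M) K)).prod =
      (l.map (MvPolynomial.esymm (Fin M) K)).prod := by
    intro l
    induction l using Multiset.induction_on with
    | empty => simp
    | cons a l ih =>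
      by_cases ha : a = 0
      · subst ha
        rw [Multiset.filter_cons_of_neg _ (by simp), ih, Multiset.map_cons, Multiset.prod_cons,
          MvPolynomial.esymm_zero, one_mul]
      · rw [Multiset.filter_cons_of_pos (p := fun x => x ≠ 0) _ ha, Multiset.map_cons, Multiset.prod_cons, ih,
          Multiset.map_cons, Multiset.prod_cons]
  rw [h2, Multiset.map_map]
  rfl

/-- The expansion of `chromK` in the elementary basis. -/
theorem exists_expansion {n N k : ℕ} (φ : Fin n → Fin N) (hφ : StrictMono φ)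
    (h : Fin n → Fin n) (hh : ∀ i j, i < j → (j ≤ h i ↔ (φ j : ℕ) ≤ (φ i : ℕ) + k))
    (H : MainId N k) :
    ∃ D : n.Partition → K, (∀ p, PosL (D p)) ∧
      ∀ M, chromK h M = ∑ p : n.Partition,
        MvPolynomial.C (D p) * MvPolynomial.esymmPart (Fin M) K p := by
  classical
  obtain ⟨th, hth, hmain⟩ := H
  set η : Fin N →₀ ℕ := epsSet (univ.image φ) with hη
  let S : Finset ℕ := (range N).filter (fun l => l * (k + 1) < N)
  let lamOf : (Fin N →₀ ℕ) → ℕ → ℕ := fun γ =>
    if hγ : IsC0 N k γ then hγ.choose else fun _ => 0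
  have hlam : ∀ γ, IsC0 N k γ → γ = epsExp (pExp k (lamOf γ)) := by
    intro γ hγ
    simp only [lamOf, dif_pos hγ]
    exact hγ.choose_spec.2
  have hG : ∀ (M : ℕ) (γ : Fin N →₀ ℕ), IsC0 N k γ →
      G N k M γ = ∏ l ∈ S, MvPolynomial.esymm (Fin M) K (lamOf γ l) := by
    intro M γ hγ
    conv_lhs => rw [hlam γ hγ]
    rw [G_pExp]
  let sz : (Fin N →₀ ℕ) → ℕ := fun γ => (S.val.map (lamOf γ)).sum
  let P : (Fin N →₀ ℕ) → n.Partition := fun γ =>
    if hs : sz γ = n then Nat.Partition.ofSums n (S.val.map (lamOf γ)) hs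
    else Nat.Partition.indiscrete n
  let F : Finset (Fin N →₀ ℕ) := ((Finset.Iic η).filter (IsC0 N k)).filter (fun γ => sz γ = n)
  refine ⟨fun p => ∑ γ ∈ F.filter (fun γ => P γ = p), th γ η,
    fun p => PosL.sum _ fun γ _ => hth γ η, fun M => ?_⟩
  have h1 : chromK h M = MvPolynomial.homogeneousComponent n (chromK h M) := by
    rw [MvPolynomial.homogeneousComponent_of_mem (chromK_isHomogeneous h M), if_pos rfl]
  have h2 : chromK h M = ∑ γ ∈ (Finset.Iic η).filter (IsC0 N k),
      MvPolynomial.C (th γ η) * G N k M γ := by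
    rw [← G_epsSet (M := M) φ hφ h hh]
    refine (hmain M η).trans ?_
    exact Finset.sum_congr (by ext γ; simp) fun _ _ => rfl
  rw [h1, h2, map_sum]
  have h3 : ∀ γ ∈ (Finset.Iic η).filter (IsC0 N k),
      MvPolynomial.homogeneousComponent n (MvPolynomial.C (th γ η) * G N k M γ) =
      if sz γ = n then MvPolynomial.C (th γ η) * MvPolynomial.esymmPart (Fin M) K (P γ)
      else 0 := by
    intro γ hγ
    have hC := (Finset.mem_filter.1 hγ).2
    rw [MvPolynomial.homogeneousComponent_C_mul, hG M γ hC,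
      MvPolynomial.homogeneousComponent_of_mem (prod_esymm_isHomogeneous M S (lamOf γ))]
    have h4 : ∑ l ∈ S, lamOf γ l = sz γ := rfl
    rw [h4]
    by_cases hs : sz γ = n
    · rw [if_pos hs, if_pos hs.symm]
      have h5 : P γ = Nat.Partition.ofSums n (S.val.map (lamOf γ)) hs := dif_pos hs
      rw [h5, prod_esymm_eq_esymmPart M S (lamOf γ) hs]
    · rw [if_neg hs, if_neg (fun h => hs h.symm), mul_zero]
  rw [Finset.sum_congr rfl h3, ← Finset.sum_filter]
  rw [← Finset.sum_fiberwise F P]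
  refine Finset.sum_congr rfl fun p _ => ?_
  rw [map_sum, Finset.sum_mul]
  refine Finset.sum_congr rfl fun γ hγ => ?_
  rw [(Finset.mem_filter.1 hγ).2]

/-- The Shareshian-Wachs theorem from the main identities of the graphs `P_{N,k}`. -/
theorem final_of_mainId (H : ∀ N k, 1 ≤ N → 1 ≤ k → MainId N k) {n : ℕ} (h : Fin n → Fin n)
    (hmono : Monotone h) :
    ∃ c : n.Partition → Polynomial ℤ, (∀ p k, 0 ≤ (c p).coeff k) ∧
      ∀ c' : n.Partition → Polynomial ℤ,
        (∀ N, chromaticQSF (unitIntervalGraph h) N =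
          ∑ p : n.Partition,
            MvPolynomial.C (c' p) * MvPolynomial.esymmPart (Fin N) (Polynomial ℤ) p) ↔
          c' = c := by
  classical
  obtain ⟨N, k, φ, hN, hk, hφ, hh⟩ : ∃ (N k : ℕ) (φ : Fin n → Fin N), 1 ≤ N ∧ 1 ≤ k ∧
      StrictMono φ ∧ ∀ i j, i < j → (j ≤ h i ↔ (φ j : ℕ) ≤ (φ i : ℕ) + k) := by
    rcases Nat.eq_zero_or_pos n with h0 | h0
    · subst h0
      exact ⟨1, 1, fun a => a.elim0, le_rfl, le_rfl, fun a => a.elim0, fun a => a.elim0⟩
    · obtain ⟨N, k, φ, hk, hφ, hh⟩ := exists_embed h hmono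
      exact ⟨N, k, φ, by have := (φ ⟨0, h0⟩).2; omega, hk, hφ, hh⟩
  obtain ⟨D, hD, hE⟩ := exists_expansion φ hφ h hh (H N k hN hk)
  exact final_of_expansion h D hD hE

/-- Block S9: the Shareshian-Wachs theorem from the theta data. `hmain` is block S6(c). -/
theorem final_of_thetaData (H : ∀ N k, 1 ≤ N → 1 ≤ k → Nonempty (ThetaData N k))
    (hmain : ∀ (N k : ℕ) (T : ThetaData N k), 1 ≤ k → ∀ (M : ℕ) (η : Fin N →₀ ℕ),
      G N k M η = ∑ γ ∈ by classical exact (Finset.Iic η).filter (IsC0 N k),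
        MvPolynomial.C (T.th γ η) * G N k M γ) {n : ℕ} (h : Fin n → Fin n)
    (hmono : Monotone h) :
    ∃ c : n.Partition → Polynomial ℤ, (∀ p k, 0 ≤ (c p).coeff k) ∧
      ∀ c' : n.Partition → Polynomial ℤ,
        (∀ N, chromaticQSF (unitIntervalGraph h) N =
          ∑ p : n.Partition,
            MvPolynomial.C (c' p) * MvPolynomial.esymmPart (Fin N) (Polynomial ℤ) p) ↔
          c' = c := by
  refine final_of_mainId (fun N k hN hk => ?_) h hmono
  obtain ⟨T⟩ := H N k hN hk
  exact ⟨T.th, fun γ η => (T.th_pos γ η).posL, hmain N k T hk⟩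

end

end Vale.Agent.P066.Theta
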