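import Vale.Agent.P066.Theta.PosL
import Vale.Agent.P066.Theta.Comb.Pos
import Vale.Agent.P066.Theta.H403.GSet
import Vale.Agent.P066.Bdl.B1

/-!
# From a positive expansion over `ℚ(v)` to the statement over `ℤ[q]`

If the normalized chromatic quasisymmetric function has an expansion `∑_p D_p e_p` with
`D_p ∈ ℕ((v))` independent of the number of variables, then `χ_G = ∑_p c_p e_p` with
`c_p ∈ ℕ[q]`.
-/

set_option autoImplicit false

open Finset

namespace Vale.Agent.P066.Theta

noncomputable section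

/-- Coefficients of the expansion of `lval c`. -/
theorem coeff_expL_lval (c : ℤ →₀ ℕ) (n : ℤ) : (expL (lval c)).coeff n = c n := by
  have h1 : lval c = (c.mapRange (Nat.cast : ℕ → ℚ) Nat.cast_zero).sum
      fun i m => algebraMap ℚ K m * v ^ i := by
    rw [Finsupp.sum_mapRange_index (by intro a; simp)]
    unfold lval
    simp
  rw [h1, coeff_expL_laurent]
  simp

/-- If a positive combination of elements of `ℕ((v))` is a Laurent polynomial with exponents in a
set `S`, then each of them is. -/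
theorem laurent_of_sum {ι : Type*} (s : Finset ι) (D : ι → K) (Nn : ι → ℕ)
    (hD : ∀ i ∈ s, PosL (D i)) (hN : ∀ i ∈ s, 0 < Nn i) (c : ℤ →₀ ℕ)
    (h : ∑ i ∈ s, (Nn i : K) * D i = lval c) :
    ∀ i ∈ s, ∃ d : ℤ →₀ ℕ, d.support ⊆ c.support ∧ D i = lval d := by
  classical
  intro i hi
  have key : ∀ n : ℤ, ∑ j ∈ s, (Nn j : ℚ) * (expL (D j)).coeff n = c n := by
    intro n
    rw [← coeff_expL_lval, ← h, map_sum, HahnSeries.coeff_sum]
    refine Finset.sum_congr rfl fun j _ => ?_
    rw [map_mul, map_natCast]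
    have h3 : ((Nn j : ℕ) : KL) = HahnSeries.C ((Nn j : ℕ) : ℚ) := by simp
    rw [h3, HahnSeries.C_mul_eq_smul, HahnSeries.coeff_smul, smul_eq_mul]
  choose m hm using hD i hi
  have hz : ∀ n : ℤ, c n = 0 → m n = 0 := by
    intro n hn
    have h1 := key n
    rw [hn, Nat.cast_zero] at h1
    have h2 : ∀ j ∈ s, 0 ≤ (Nn j : ℚ) * (expL (D j)).coeff n := by
      intro j hj
      obtain ⟨a, ha⟩ := hD j hj n
      rw [ha]; positivity
    have h3 := (Finset.sum_eq_zero_iff_of_nonneg h2).1 h1 i hi
    rw [hm n] at h3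
    have h4 : (Nn i : ℚ) ≠ 0 := by exact_mod_cast (hN i hi).ne'
    have h5 := (mul_eq_zero.1 h3).resolve_left h4
    exact_mod_cast h5
  refine ⟨Finsupp.onFinset c.support m (fun n hn => ?_), ?_, ?_⟩
  · rw [Finsupp.mem_support_iff]
    exact fun h0 => hn (hz n h0)
  · exact Finsupp.support_onFinset_subset
  · apply expL_injective
    ext n
    rw [coeff_expL_lval, Finsupp.onFinset_apply]
    exact hm n

/-- `q ↦ v^{-2}`. -/
def rho : Polynomial ℤ →+* K := Polynomial.eval₂RingHom (Int.castRingHom K) (v ^ (-2 : ℤ))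

theorem rho_X : rho Polynomial.X = v ^ (-2 : ℤ) := by
  simp [rho]

theorem rho_monomial (n : ℕ) (a : ℤ) :
    rho (Polynomial.monomial n a) = (a : K) * v ^ (-2 * (n : ℤ)) := by
  unfold rho
  rw [Polynomial.coe_eval₂RingHom, Polynomial.eval₂_monomial, ← zpow_natCast, ← zpow_mul]
  simp

theorem expL_intCast_mul_zpow (a : ℤ) (i : ℤ) :
    expL ((a : K) * v ^ i) = HahnSeries.single i (a : ℚ) := by
  rw [map_mul, map_intCast, expL_zpow]
  have h3 : ((a : ℤ) : KL) = HahnSeries.C ((a : ℤ) : ℚ) := by simp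
  rw [h3, HahnSeries.C_apply, HahnSeries.single_mul_single, zero_add, mul_one]

theorem coeff_expL_rho (P : Polynomial ℤ) (n : ℕ) :
    (expL (rho P)).coeff (-2 * (n : ℤ)) = P.coeff n := by
  classical
  have h1 : rho P = ∑ a ∈ P.support, ((P.coeff a : ℤ) : K) * v ^ (-2 * (a : ℤ)) := by
    conv_lhs => rw [P.as_sum_support]
    rw [map_sum]
    exact Finset.sum_congr rfl fun a _ => rho_monomial a _
  rw [h1, map_sum, Finset.sum_congr rfl fun a _ => expL_intCast_mul_zpow _ _,
    HahnSeries.coeff_sum, Finset.sum_eq_single n]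
  · simp
  · intro b _ hb
    refine HahnSeries.coeff_single_of_ne fun h => hb ?_
    omega
  · intro hn
    rw [Polynomial.notMem_support_iff] at hn
    simp [hn]

theorem rho_injective : Function.Injective rho := by
  rw [injective_iff_map_eq_zero]
  intro P hP
  ext n
  have h := coeff_expL_rho P n
  rw [hP, map_zero] at h
  simp only [HahnSeries.coeff_zero, Polynomial.coeff_zero] at h ⊢
  exact_mod_cast h.symm

/-- An element of `v^E ℕ[v^{-2}]` comes from `ℕ[q]`. -/
theorem exists_rho (E : ℤ) (d : ℤ →₀ ℕ) (hd : ∀ i ∈ d.support, ∃ a : ℕ, i = E - 2 * (a : ℤ)) :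
    ∃ c : Polynomial ℤ, (∀ k, 0 ≤ c.coeff k) ∧ lval d = v ^ E * rho c := by
  classical
  refine ⟨∑ i ∈ d.support, Polynomial.monomial ((E - i) / 2).toNat ((d i : ℕ) : ℤ), ?_, ?_⟩
  · intro k
    rw [Polynomial.finsetSum_coeff]
    refine Finset.sum_nonneg fun i _ => ?_
    rw [Polynomial.coeff_monomial]
    split_ifs <;> positivity
  · rw [map_sum, Finset.mul_sum]
    unfold lval
    rw [Finsupp.sum]
    refine Finset.sum_congr rfl fun i hi => ?_
    obtain ⟨a, ha⟩ := hd i hi
    have h1 : ((E - i) / 2).toNat = a := by rw [ha]; omega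
    rw [h1, rho_monomial, ha]
    have h2 : E - 2 * (a : ℤ) = E + (-2 * (a : ℤ)) := by ring
    rw [h2, zpow_add₀ v_ne_zero]
    push_cast
    ring

theorem map_esymmPart {n : ℕ} {R S : Type*} [CommRing R] [CommRing S] (f : R →+* S) (M : ℕ)
    (p : n.Partition) :
    MvPolynomial.map f (MvPolynomial.esymmPart (Fin M) R p) =
      MvPolynomial.esymmPart (Fin M) S p := by
  unfold MvPolynomial.esymmPart
  rw [map_multiset_prod, Multiset.map_map]
  congr 1
  refine Multiset.map_congr rfl fun a _ => ?_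
  simp [MvPolynomial.map_esymm]

theorem eval_esymm_one (n k : ℕ) :
    MvPolynomial.eval (fun _ => (1 : K)) (MvPolynomial.esymm (Fin n) K k) = (n.choose k : K) := by
  unfold MvPolynomial.esymm
  simp [map_sum, map_prod, Finset.card_powersetCard]

theorem eval_esymmPart_one {n : ℕ} (p : n.Partition) :
    MvPolynomial.eval (fun _ => (1 : K)) (MvPolynomial.esymmPart (Fin n) K p) =
      (((p.parts.map fun k => n.choose k).prod : ℕ) : K) := by
  unfold MvPolynomial.esymmPart
  rw [map_multiset_prod, Multiset.map_map, ← Nat.coe_castRingHom, map_multiset_prod,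
    Multiset.map_map]
  congr 1
  refine Multiset.map_congr rfl fun a _ => ?_
  simp [eval_esymm_one]

theorem prod_choose_pos {n : ℕ} (p : n.Partition) :
    0 < (p.parts.map fun k => n.choose k).prod := by
  apply Nat.pos_of_ne_zero
  intro h0
  rw [Multiset.prod_eq_zero_iff, Multiset.mem_map] at h0
  obtain ⟨a, ha, h1⟩ := h0
  have h2 : a ≤ n := by
    have := Multiset.single_le_sum (s := p.parts) (fun _ _ => Nat.zero_le _) a ha
    rwa [p.parts_sum] at this
  exact (Nat.choose_pos h2).ne' h1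

theorem map_rho_chromaticQSF {n : ℕ} (h : Fin n → Fin n) (M : ℕ) :
    chromK h M = MvPolynomial.C (v ^ (numEdges h : ℤ)) *
      MvPolynomial.map rho (chromaticQSF (unitIntervalGraph h) M) := by
  classical
  unfold chromK chromaticQSF
  rw [map_sum, Finset.mul_sum]
  refine Finset.sum_congr (by ext f; simp) fun f _ => ?_
  rw [map_mul, MvPolynomial.map_C, map_prod, map_pow, rho_X, ← mul_assoc, ← MvPolynomial.C_mul]
  congr 1
  · congr 1
    rw [sub_eq_add_neg, zpow_add₀ v_ne_zero, ← zpow_natCast, ← zpow_mul]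
    congr 2
  · exact Finset.prod_congr rfl fun a _ => by rw [MvPolynomial.map_X]

/-- The evaluation of `chromK` at `1` is `∑ v^{|E| - 2 asc f}`. -/
theorem eval_chromK {n : ℕ} (h : Fin n → Fin n) (M : ℕ) :
    ∃ c : ℤ →₀ ℕ, (∀ i ∈ c.support, ∃ a : ℕ, i = (numEdges h : ℤ) - 2 * (a : ℤ)) ∧
      MvPolynomial.eval (fun _ => (1 : K)) (chromK h M) = lval c := by
  classical
  let S : Finset (Fin n → Fin M) :=
    univ.filter (fun f => ∀ a b, (unitIntervalGraph h).Adj a b → f a ≠ f b)
  refine ⟨∑ f ∈ S,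
    Finsupp.single ((numEdges h : ℤ) - 2 * (asc (unitIntervalGraph h) f : ℤ)) 1, ?_, ?_⟩
  · intro i hi
    obtain ⟨f, _, hf⟩ : ∃ f ∈ S,
        i ∈ (Finsupp.single ((numEdges h : ℤ) - 2 * (asc (unitIntervalGraph h) f : ℤ)) 1 :
          ℤ →₀ ℕ).support := by
      have := Finsupp.support_finsetSum hi
      simpa using this
    refine ⟨asc (unitIntervalGraph h) f, ?_⟩
    have h1 := Finsupp.support_single_subset hf
    simpa using h1
  · have h1 : ∀ T : Finset (Fin n → Fin M), lval (∑ f ∈ T,
        Finsupp.single ((numEdges h : ℤ) - 2 * (asc (unitIntervalGraph h) f : ℤ)) 1) =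
        ∑ f ∈ T, v ^ ((numEdges h : ℤ) - 2 * (asc (unitIntervalGraph h) f : ℤ)) := by
      intro T
      induction T using Finset.induction_on with
      | empty => simp [lval_zero]
      | insert a T ha ih =>
        rw [Finset.sum_insert ha, Finset.sum_insert ha, lval_add, ih, lval_single]
        simp
    rw [h1]
    unfold chromK
    rw [map_sum]
    refine Finset.sum_congr (by ext f; simp [S]) fun f _ => ?_
    simp [map_mul, map_prod]

/-- The reduction of the final statement to an expansion over `ℚ(v)` with coefficients in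
`ℕ((v))`. -/
theorem final_of_expansion {n : ℕ} (h : Fin n → Fin n) (D : n.Partition → K)
    (hD : ∀ p, PosL (D p))
    (hE : ∀ M, chromK h M = ∑ p : n.Partition,
      MvPolynomial.C (D p) * MvPolynomial.esymmPart (Fin M) K p) :
    ∃ c : n.Partition → Polynomial ℤ, (∀ p k, 0 ≤ (c p).coeff k) ∧
      ∀ c' : n.Partition → Polynomial ℤ,
        (∀ N, chromaticQSF (unitIntervalGraph h) N =
          ∑ p : n.Partition,
            MvPolynomial.C (c' p) * MvPolynomial.esymmPart (Fin N) (Polynomial ℤ) p) ↔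
          c' = c := by
  classical
  obtain ⟨c0, hc0, hev⟩ := eval_chromK h n
  have h1 : ∑ p : n.Partition,
      (((p.parts.map fun k => n.choose k).prod : ℕ) : K) * D p = lval c0 := by
    rw [← hev, hE n, map_sum]
    refine Finset.sum_congr rfl fun p _ => ?_
    rw [map_mul, MvPolynomial.eval_C, eval_esymmPart_one, mul_comm]
  have h2 := laurent_of_sum univ D (fun p => (p.parts.map fun k => n.choose k).prod)
    (fun p _ => hD p) (fun p _ => prod_choose_pos p) c0 h1
  have h3 : ∀ p : n.Partition, ∃ c : Polynomial ℤ, (∀ k, 0 ≤ c.coeff k) ∧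
      D p = v ^ (numEdges h : ℤ) * rho c := by
    intro p
    obtain ⟨d, hd, hDd⟩ := h2 p (mem_univ p)
    obtain ⟨c, hc, he⟩ := exists_rho (numEdges h : ℤ) d fun i hi => hc0 i (hd hi)
    exact ⟨c, hc, hDd.trans he⟩
  choose c hc hDc using h3
  have hexp : ∀ N, chromaticQSF (unitIntervalGraph h) N = ∑ p : n.Partition,
      MvPolynomial.C (c p) * MvPolynomial.esymmPart (Fin N) (Polynomial ℤ) p := by
    intro N
    apply MvPolynomial.map_injective rho rho_injective
    have h4 : (MvPolynomial.C (v ^ (numEdges h : ℤ)) : MvPolynomial (Fin N) K) ≠ 0 := by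
      rw [Ne, MvPolynomial.C_eq_zero]
      exact zpow_ne_zero _ v_ne_zero
    apply mul_left_cancel₀ h4
    rw [← map_rho_chromaticQSF, hE N, map_sum, Finset.mul_sum]
    refine Finset.sum_congr rfl fun p _ => ?_
    rw [map_mul, MvPolynomial.map_C, map_esymmPart, hDc p, MvPolynomial.C_mul, mul_assoc]
  refine ⟨c, hc, fun c' => ⟨fun h' => ?_, fun h' => ?_⟩⟩
  · exact expansion_unique le_rfl c' c ((h' n).symm.trans (hexp n))
  · rw [h']; exact hexp

end

end Vale.Agent.P066.Theta
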