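import Vale.Agent.P066.Theta.ClusterExists
import Vale.Agent.P066.Theta.Dilog

/-!
# Assembly of the unconditional part (conditional form)

`goodElement_of`: the seven inputs `U1` (in the library) - `U7` give `GoodElement N k`.
-/

set_option autoImplicit false

open Finset

namespace Vale.Agent.P066.Theta

/-- `U2`: attractor data of the cluster element. -/
def U2Prop : Prop :=
  ∀ (r : ℕ) (B : Matrix (Fin r) (Fin r) ℤ), B.transpose = -B → ∀ g : QSeries B,
    IsCluster B g → AttrPos g

/-- `U3` (with the local theorem as input): flow. -/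
def U3Prop : Prop :=
  LocalTheorem → ∀ (r : ℕ) (B : Matrix (Fin r) (Fin r) ℤ), B.transpose = -B → ∀ g : QSeries B,
    g 0 = 1 → AttrPos g → WallPos g

/-- `U4`: from the walls to the theta functions. -/
def U4Prop : Prop :=
  ∀ (r : ℕ) (B : Matrix (Fin r) (Fin r) ℤ), B.transpose = -B → ∀ g : QSeries B,
    g 0 = 1 → WallPos g → StrongPositivity g

/-- `U5c`: the first `N` mutations. -/
def U5Prop : Prop :=
  ∀ (N k : ℕ), 1 ≤ N → 1 ≤ k → ∀ g : QSeries (extB N k), IsCluster (extB N k) g →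
    ∃ g' : QSeries (extB N k), (∀ γ, g' γ ≠ 0 → ∀ i : Fin N, (i : ℕ) = 0 → γ i = 0) ∧
      g = Aprod N k * g'

/-- `U6`: faces. -/
def U6Prop : Prop :=
  ∀ (r : ℕ) (B : Matrix (Fin r) (Fin r) ℤ), B.transpose = -B → ∀ g : QSeries B,
    IsCluster B g → ∀ (j : Fin r) (m : ℕ), g (Finsupp.single j m) = psi m

/-- Assembly: all inputs give the element needed for the combinatorial part. -/
theorem goodElement_of (h2 : U2Prop) (h3 : U3Prop) (h4 : U4Prop) (h5 : U5Prop) (h6 : U6Prop)
    (h7 : LocalTheorem) (N k : ℕ) (hN : 1 ≤ N) (hk : 1 ≤ k) : GoodElement N k := by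
  have hB : (extB N k).transpose = -(extB N k) := Dil.extB_skew N k
  obtain ⟨g, hg⟩ := exists_isCluster hB
  refine ⟨g, hg.1, ?_, ?_, ?_⟩
  · exact h4 N _ hB g hg.1 (h3 h7 N _ hB g hg.1 (h2 N _ hB g hg))
  · exact h5 N k hN hk g hg
  · intro j m _
    exact h6 N _ hB g hg j m

end Vale.Agent.P066.Theta
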