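import Vale.Agent.P066.Theta.Uncond

/-!
# Mutation: definitions and statements
-/

set_option autoImplicit false

open Finset

namespace Vale.Agent.P066.Theta

noncomputable section

variable {r : ℕ}

/-- `w₊(b) = ∑_j b_j [ω(y_j, y_k)]₊` (does not depend on `b_k` if `B` is skew). -/
def wplus (B : Matrix (Fin r) (Fin r) ℤ) (k : Fin r) (b : Fin r →₀ ℕ) : ℕ :=
  ∑ j, b j * (max (B j k) 0).toNat

/-- `w₋(b) = ∑_j b_j [ω(y_k, y_j)]₊`. -/
def wminus (B : Matrix (Fin r) (Fin r) ℤ) (k : Fin r) (b : Fin r →₀ ℕ) : ℕ :=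
  ∑ j, b j * (max (B k j) 0).toNat

/-- The `c`-vectors after mutation at `k`: `y_k' = -y_k`, `y_j' = y_j + [ω(y_j,y_k)]₊ y_k`. -/
def mutVec (B : Matrix (Fin r) (Fin r) ℤ) (k : Fin r) (i : Fin r) : Fin r → ℤ :=
  if i = k then -Pi.single k 1 else Pi.single i 1 + max (B i k) 0 • Pi.single k 1

/-- The mutated exchange matrix `ω(y_i', y_j')`. -/
def mutB (B : Matrix (Fin r) (Fin r) ℤ) (k : Fin r) : Matrix (Fin r) (Fin r) ℤ :=
  fun i j => omega B (mutVec B k i) (mutVec B k j)

/-- `b_k ↦ w₊(b) - b_k`: change of coordinates between the seed and the seed mutated at `k`,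
for vectors in both cones. -/
def tmap (B : Matrix (Fin r) (Fin r) ℤ) (k : Fin r) (b : Fin r →₀ ℕ) : Fin r →₀ ℕ :=
  b.update k (wplus B k b - b k)

/-- Transport of a series supported on `{b_k ≤ w₊(b)}` to the mutated seed. -/
def transp (B : Matrix (Fin r) (Fin r) ℤ) (k : Fin r) (h : QSeries B) : QSeries (mutB B k) :=
  fun b => if b k ≤ wplus B k b then h (tmap B k b) else 0

/-- Support lemma (U5a). -/
def SupportLemma : Prop :=
  ∀ (r : ℕ) (B : Matrix (Fin r) (Fin r) ℤ), B.transpose = -B → ∀ (k : Fin r) (g : QSeries B),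
    IsCluster B g →
      (∀ h : QSeries B, g = dilog B (Finsupp.single k 1) * h →
        ∀ b, h b ≠ 0 → b k ≤ wplus B k b) ∧
      (∀ l : QSeries B, g = l * dilog B (Finsupp.single k 1) →
        ∀ b, l b ≠ 0 → b k ≤ wminus B k b)

/-- Mutation theorem (U5b). -/
def MutationTheorem : Prop :=
  ∀ (r : ℕ) (B : Matrix (Fin r) (Fin r) ℤ), B.transpose = -B → ∀ (k : Fin r) (g h : QSeries B),
    IsCluster B g → g = dilog B (Finsupp.single k 1) * h →
      IsCluster (mutB B k) (transp B k h * dilog (mutB B k) (Finsupp.single k 1))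

end

end Vale.Agent.P066.Theta
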