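import Vale.Agent.P066.Theta.Dilog

/-!
# `ϑ_z = E` : the theta function attached to `s = (1, 0, …, 0)`
-/

set_option autoImplicit false

open Finset

namespace Vale.Agent.P066.Theta

noncomputable section

variable {r : ℕ} {B : Matrix (Fin r) (Fin r) ℤ}

namespace Dil

theorem wt_chartAt_self (hB : B.transpose = -B) (s : Fin r → ℤ) (γ : Fin r →₀ ℕ) :
    wt (chartAt B s γ) γ = wt s γ := by
  have h := omega_self hB (toZ γ)
  have h2 : wt (chartAt B s γ) γ = wt s γ + omega B (toZ γ) (toZ γ) := by
    simp only [wt, chartAt, omega, toZ, mul_add, sum_add_distrib, mul_sum]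
    congr 1
    exact sum_congr rfl fun i _ => sum_congr rfl fun j _ => by ring
  rw [h2, h, add_zero]

/-- The restriction of a series to the face `{wt s = 0}`. -/
def faceProj (s : Fin r → ℤ) (f : QSeries B) : QSeries B := fun γ => if wt s γ = 0 then f γ else 0

theorem wt_nonneg {s : Fin r → ℤ} (hs : ∀ i, 0 ≤ s i) (γ : Fin r →₀ ℕ) : 0 ≤ wt s γ :=
  sum_nonneg fun i _ => mul_nonneg (Int.natCast_nonneg _) (hs i)

theorem faceProj_mul {s : Fin r → ℤ} (hs : ∀ i, 0 ≤ s i) (f g : QSeries B) :
    faceProj s (f * g) = faceProj s f * faceProj s g := by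
  ext γ
  rw [QSeries.mul_apply]
  unfold faceProj
  split_ifs with h
  · rw [QSeries.mul_apply]
    refine sum_congr rfl fun p hp => ?_
    rw [HasAntidiagonal.mem_antidiagonal] at hp
    have h1 := wt_nonneg hs p.1
    have h2 := wt_nonneg hs p.2
    rw [← hp, wt_add] at h
    rw [if_pos (by omega), if_pos (by omega)]
  · symm
    refine sum_eq_zero fun p hp => ?_
    rw [HasAntidiagonal.mem_antidiagonal] at hp
    rw [← hp, wt_add] at h
    by_cases h1 : wt s p.1 = 0
    · have h2 : wt s p.2 ≠ 0 := by omega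
      rw [if_neg h2, mul_zero]
    · rw [if_neg h1, mul_zero, zero_mul]

theorem faceProj_zero_apply (s : Fin r → ℤ) (f : QSeries B) : faceProj s f 0 = f 0 := by
  simp [faceProj]

theorem faceProj_twist (s : Fin r → ℤ) (f : QSeries B) :
    faceProj s (twist s f) = faceProj s f := by
  ext γ
  unfold faceProj
  split_ifs with h
  · rw [twist_apply, h]; simp
  · rfl

end Dil

open Dil

/-- If `g(v^{2s}·) = E g` with `s ≥ 0`, then `E` is the theta function of `s`. -/
theorem isTheta_of_twist (hB : B.transpose = -B) {g E : QSeries B} {s : Fin r → ℤ}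
    (hs : ∀ i, 0 ≤ s i) (h0 : g 0 = 1) (hE : twist s g = E * g) : IsTheta g s E := by
  refine ⟨?_, ?_⟩
  · have h := congrFun hE 0
    rw [QSeries.mul_zero_apply, twist_apply_zero, h0, mul_one] at h
    exact h.symm
  · intro γ hγ R hR
    obtain ⟨gp, hgp, hR⟩ := hR.out
    obtain ⟨gm, hgm, hg⟩ := hgp.rest
    have hgm0 : gm 0 = 1 := by
      have h := congrFun hg 0
      rw [QSeries.mul_zero_apply, h0, hgp.zero, one_mul] at h
      exact h.symm
    have hu : IsUnit (twist s gp) :=
      QSeries.isUnit_of_one (by rw [twist_apply_zero]; exact hgp.zero)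
    have key : R * gm = twist s gm := by
      apply hu.mul_left_cancel
      rw [← mul_assoc, hR, mul_assoc, ← hg, ← hE, hg, twist_mul]
    have hugm : IsUnit gm := QSeries.isUnit_of_one hgm0
    -- support of `R`
    set Q := chartAt B s γ with hQ
    let S : AddSubmonoid (Fin r →₀ ℕ) :=
      { carrier := {γ | wt Q γ ≤ 0}
        zero_mem' := by simp
        add_mem' := by
          intro a b ha hb
          simp only [Set.mem_ofPred_eq] at *
          rw [wt_add]; omega }
    have hgmS : gm ∈ QSeries.supp (B := B) S := fun e he => hgm e he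
    have hRS : R ∈ QSeries.supp (B := B) S := by
      have : R = twist s gm * Ring.inverse gm := by
        rw [← key, mul_assoc, Ring.mul_inverse_cancel _ hugm, mul_one]
      rw [this]
      exact Subalgebra.mul_mem _ (twist_mem_supp s hgmS)
        (QSeries.inverse_mem_supp hgmS (by rw [hgm0]; exact one_ne_zero))
    by_contra hne
    have h1 : wt Q γ ≤ 0 := hRS γ hne
    rw [hQ, wt_chartAt_self hB] at h1
    have h2 : wt s γ = 0 := le_antisymm h1 (wt_nonneg hs γ)
    -- on the face the series `R` is `1`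
    have h3 : faceProj s R * faceProj s gm = faceProj s gm := by
      rw [← faceProj_mul hs, key, faceProj_twist]
    have hu3 : IsUnit (faceProj s gm) :=
      QSeries.isUnit_of_one (by rw [faceProj_zero_apply, hgm0])
    have h4 : faceProj s R = 1 := by
      apply hu3.mul_right_cancel
      rw [h3, one_mul]
    have h5 := congrFun h4 γ
    unfold faceProj at h5
    rw [if_pos h2, QSeries.one_apply, if_neg hγ] at h5
    exact hne h5

/-- If `s ≤ 0` then `ϑ_p = x^p`. -/
theorem Dil.isTheta_one (hB : B.transpose = -B) {g : QSeries B} {s : Fin r → ℤ}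
    (hs : ∀ i, s i ≤ 0) : IsTheta g s 1 := by
  refine ⟨QSeries.one_zero, ?_⟩
  intro γ hγ R hR
  obtain ⟨gp, hgp, hR⟩ := hR.out
  rw [one_mul] at hR
  set Q := chartAt B s γ with hQ
  let S : AddSubmonoid (Fin r →₀ ℕ) :=
    { carrier := {γ | γ = 0 ∨ 0 < wt Q γ}
      zero_mem' := Or.inl rfl
      add_mem' := by
        intro a b ha hb
        simp only [Set.mem_ofPred_eq] at *
        rcases ha with rfl | ha
        · rwa [zero_add]
        · rcases hb with rfl | hb
          · rw [add_zero]; exact Or.inr ha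
          · right; rw [wt_add]; omega }
  have hgpS : gp ∈ QSeries.supp (B := B) S := by
    intro e he
    by_cases h : e = 0
    · exact Or.inl h
    · exact Or.inr (hgp.supp e h he)
  have hu : IsUnit (twist s gp) :=
    QSeries.isUnit_of_one (by rw [twist_apply_zero]; exact hgp.zero)
  have hRS : R ∈ QSeries.supp (B := B) S := by
    have : R = Ring.inverse (twist s gp) * gp := by
      apply hu.mul_left_cancel
      rw [← mul_assoc, Ring.mul_inverse_cancel _ hu, one_mul, hR]
    rw [this]
    exact Subalgebra.mul_mem _ (QSeries.inverse_mem_supp (twist_mem_supp s hgpS)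
      (by rw [twist_apply_zero, hgp.zero]; exact one_ne_zero)) hgpS
  by_contra hne
  have h1 : γ = 0 ∨ 0 < wt Q γ := hRS γ hne
  rcases h1 with h1 | h1
  · exact hγ h1
  · rw [hQ, wt_chartAt_self hB] at h1
    have : wt s γ ≤ 0 := sum_nonpos fun i _ =>
      mul_nonpos_of_nonneg_of_nonpos (Int.natCast_nonneg _) (hs i)
    omega

/-! ### The series `E` -/

theorem Dil.dilog_zero_apply (c : Fin r →₀ ℕ) : dilog B c 0 = 1 := by
  simp [dilog, psi]

theorem Aprod_zero_apply (N k : ℕ) : Aprod N k 0 = 1 := by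
  rw [Aprod_eq]
  have : ∀ n, DilogAlg.Apr (fun a => dilog (extB N k) (ev N a)) n 0 = 1 := by
    intro n
    induction n with
    | zero => simp only [DilogAlg.Apr]; exact QSeries.one_zero
    | succ n ih =>
      simp only [DilogAlg.Apr]
      rw [QSeries.mul_zero_apply, ih, dilog_zero_apply, one_mul]
  exact this N

/-- `ϑ_z = E`, where `g = Ψ(x^{ε_1}) ⋯ Ψ(x^{ε_N}) g'` and `g'` does not involve `y_0`. -/
theorem isTheta_Eser {N k : ℕ} {g g' : QSeries (extB N k)} (hg : g = Aprod N k * g')
    (h0 : g' 0 = 1) (hg' : ∀ γ, g' γ ≠ 0 → wt (sz N) γ = 0) :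
    IsTheta g (sz N) (Eser N k 1) := by
  have hs : ∀ i, 0 ≤ sz N i := by
    intro i; unfold sz; split_ifs <;> omega
  refine isTheta_of_twist (extB_skew N k) hs ?_ ?_
  · rw [hg, QSeries.mul_zero_apply, Aprod_zero_apply, h0, one_mul]
  · have h1 : twist (sz N) g' = g' := by
      ext γ
      rw [twist_apply]
      by_cases h : g' γ = 0
      · rw [h, mul_zero]
      · rw [hg' γ h]; simp
    rw [hg, twist_mul, Aprod_twist_sz, h1, mul_assoc]

theorem Dil.twist_Eser (N k : ℕ) (c d : ℤ) :
    twist (fun i => d * sz N i) (Eser N k c) = Eser N k (c + 2 * d) := by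
  classical
  ext γ
  rw [twist_apply]
  unfold Eser
  rw [mul_sum]
  refine sum_congr rfl fun I _ => ?_
  by_cases h : Stable k I ∧ epsSet I = γ
  · rw [if_pos h, if_pos h, ← zpow_add₀ v_ne_zero]
    congr 1
    have hw : wt (fun i => d * sz N i) γ = d * I.card := by
      have h1 : wt (fun i => d * sz N i) γ = d * wt (sz N) γ := by
        simp only [wt, mul_sum]
        exact sum_congr rfl fun i _ => by ring
      rw [h1, ← h.2]
      congr 1
      rcases Nat.eq_zero_or_pos N with hN | hN
      · subst hN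
        have : I = ∅ := by ext a; exact a.elim0
        subst this
        simp [wt]
      · unfold wt sz
        rw [Finset.sum_eq_single (⟨0, hN⟩ : Fin N)]
        · unfold epsSet
          rw [epsExp_apply]
          simp [Fin.le_def]
        · intro b _ hb
          rw [if_neg, mul_zero]
          intro h'
          exact hb (Fin.ext h')
        · intro h'; exact absurd (mem_univ _) h'
    rw [hw]; ring
  · rw [if_neg h, if_neg h, mul_zero]

/-- `ϑ_z ϑ_{-z}` is a positive combination of theta functions. -/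
theorem Dil.H_pos_aux {N k : ℕ} {g g' : QSeries (extB N k)} (hg : g = Aprod N k * g')
    (h0 : g' 0 = 1) (hg' : ∀ γ, g' γ ≠ 0 → wt (sz N) γ = 0) (hsp : StrongPositivity g)
    (γ : Fin N →₀ ℕ) (R : QSeries (extB N k)) (hR : IsChartExpansion g 0 γ (Eser N k (-1)) R) :
    Pos (R γ) := by
  have h1 : IsTheta g (sz N) (Eser N k 1) := isTheta_Eser hg h0 hg'
  have h2 : IsTheta g (fun i => (-1) * sz N i) 1 := Dil.isTheta_one (extB_skew N k) (by
    intro i; unfold sz; split_ifs <;> omega)
  have h3 := hsp _ _ _ _ h1 h2 γ R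
  apply h3
  rw [mul_one, twist_Eser]
  have e : sz N + (fun i => (-1) * sz N i) = 0 := by
    funext i; simp
  rw [e]
  exact hR

theorem Dil.wt_sz_eq_zero {N : ℕ} {γ : Fin N →₀ ℕ} (h : ∀ i : Fin N, (i : ℕ) = 0 → γ i = 0) :
    wt (sz N) γ = 0 := by
  unfold wt sz
  refine sum_eq_zero fun i _ => ?_
  split_ifs with hi
  · rw [h i hi]; simp
  · simp

/-- `ϑ_z = E` (form used with `GoodElement`). -/
theorem isTheta_Eser_good {N k : ℕ} [NeZero N] {g : QSeries (extB N k)} (h0 : g 0 = 1)
    (hg : ∃ g' : QSeries (extB N k), (∀ γ, g' γ ≠ 0 → ∀ i : Fin N, (i : ℕ) = 0 → γ i = 0) ∧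
      g = Aprod N k * g') :
    IsTheta g (Pi.single (0 : Fin N) 1) (Eser N k 1) := by
  obtain ⟨g', h1, h2⟩ := hg
  rw [← sz_eq_single_zero]
  refine isTheta_Eser h2 ?_ fun γ h => wt_sz_eq_zero (h1 γ h)
  have := congrFun h2 0
  rw [QSeries.mul_zero_apply, Aprod_zero_apply, h0, one_mul] at this
  exact this.symm

/-- `ϑ_z ϑ_{-z}` is a positive combination of theta functions. -/
theorem H_pos {N k : ℕ} {g : QSeries (extB N k)} (h0 : g 0 = 1) (hsp : StrongPositivity g)
    (hg : ∃ g' : QSeries (extB N k), (∀ γ, g' γ ≠ 0 → ∀ i : Fin N, (i : ℕ) = 0 → γ i = 0) ∧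
      g = Aprod N k * g')
    (γ : Fin N →₀ ℕ) (R : QSeries (extB N k)) (hR : IsChartExpansion g 0 γ (Eser N k (-1)) R) :
    Pos (R γ) := by
  obtain ⟨g', h1, h2⟩ := hg
  refine H_pos_aux h2 ?_ (fun γ h => wt_sz_eq_zero (h1 γ h)) hsp γ R hR
  have := congrFun h2 0
  rw [QSeries.mul_zero_apply, Aprod_zero_apply, h0, one_mul] at this
  exact this.symm

end

end Vale.Agent.P066.Theta
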