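import Vale.Agent.P066.Theta.H505.Steps
import Vale.Agent.P066.Theta.Face

/-!
# The support lemma for the cluster element

If `g` is the cluster element, `g = Ψ(y_k) h = l Ψ(y_k)`, then `h` is supported on
`{b_k ≤ w₊(b)}` and `l` on `{b_k ≤ w₋(b)}`.
-/

set_option autoImplicit false

open Finset

namespace Vale.Agent.P066.Theta

noncomputable section

namespace SuppM

open QSeries

variable {r : ℕ} {B : Matrix (Fin r) (Fin r) ℤ}

/-! ### restriction to the lines `β + ℕ y_k` -/

/-- `∑_i F(β + i y_k) t^i`. -/
def strip (k : Fin r) (β : Fin r →₀ ℕ) (F : QSeries B) : PowerSeries K :=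
  PowerSeries.mk fun i => F (β + Finsupp.single k i)

theorem toZ_single (k : Fin r) (m : ℕ) :
    toZ (Finsupp.single k m) = toZ (m • (Finsupp.single k 1 : Fin r →₀ ℕ)) := by
  rw [Finsupp.smul_single, smul_eq_mul, mul_one]

theorem omega_single_left (k : Fin r) (m : ℕ) (x : Fin r → ℤ) :
    omega B (toZ (Finsupp.single k m)) x = m * omega B (toZ (Finsupp.single k 1)) x := by
  rw [toZ_single, Dil.omega_smul_left]

theorem omega_single_right (k : Fin r) (m : ℕ) (x : Fin r → ℤ) :
    omega B x (toZ (Finsupp.single k m)) = m * omega B x (toZ (Finsupp.single k 1)) := by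
  rw [toZ_single, Dil.omega_smul_right]

theorem strip_dilog_mul (hB : B.transpose = -B) {k : Fin r} {β : Fin r →₀ ℕ} (hβ : β k = 0)
    (h : QSeries B) :
    strip k β (dilog B (Finsupp.single k 1) * h) =
      strip k β h * H21.Psi (omega B (toZ (Finsupp.single k 1)) (toZ β)) := by
  ext i
  rw [strip, PowerSeries.coeff_mk, PowerSeries.coeff_mul, mul_apply]
  symm
  refine sum_of_injOn (fun p => (Finsupp.single k p.2, β + Finsupp.single k p.1)) ?_ ?_ ?_ ?_
  · rintro ⟨p, q⟩ _ ⟨p', q'⟩ _ he
    simp only [Prod.mk.injEq] at he ⊢
    have h1 := DFunLike.congr_fun he.1 k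
    have h2 := DFunLike.congr_fun he.2 k
    simp at h1 h2
    exact ⟨h2, h1⟩
  · rintro ⟨p, q⟩ hp
    simp only [mem_coe, HasAntidiagonal.mem_antidiagonal] at hp ⊢
    rw [← hp, Finsupp.single_add]
    abel
  · rintro ⟨p, q⟩ hp hn
    simp only [mem_coe, HasAntidiagonal.mem_antidiagonal, Set.mem_image, Prod.mk.injEq,
      Prod.exists, not_exists, not_and] at hp hn ⊢
    by_cases hd : dilog B (Finsupp.single k 1) p = 0
    · rw [hd]
      ring
    · exfalso
      have e := dilog_supp hd
      have hk := DFunLike.congr_fun hp k
      simp [hβ] at hk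
      refine hn (q k) (p k) (by omega) e.symm ?_
      ext j
      have hj := DFunLike.congr_fun hp j
      rw [e] at hj
      simp only [Finsupp.add_apply] at hj ⊢
      by_cases hjk : j = k
      · subst hjk
        simp [hβ]
      · rw [Finsupp.single_apply, if_neg (Ne.symm hjk)] at hj ⊢
        rw [Finsupp.single_apply, if_neg (Ne.symm hjk)] at hj
        omega
  · rintro ⟨p, q⟩ hp
    have e : omega B (toZ (Finsupp.single k q)) (toZ (β + Finsupp.single k p)) =
        omega B (toZ (Finsupp.single k 1)) (toZ β) * q := by
      rw [toZ_add, omega_add_right, omega_single_right k p, omega_single_left k q (toZ β),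
        omega_single_left k q, omega_self hB]
      ring
    rw [strip, PowerSeries.coeff_mk, H21.coeff_Psi, dilog_single, e]
    ring

theorem strip_mul_dilog (hB : B.transpose = -B) {k : Fin r} {β : Fin r →₀ ℕ} (hβ : β k = 0)
    (l : QSeries B) :
    strip k β (l * dilog B (Finsupp.single k 1)) =
      strip k β l * H21.Psi (-omega B (toZ (Finsupp.single k 1)) (toZ β)) := by
  ext i
  rw [strip, PowerSeries.coeff_mk, PowerSeries.coeff_mul, mul_apply]
  symm
  refine sum_of_injOn (fun p => (β + Finsupp.single k p.1, Finsupp.single k p.2)) ?_ ?_ ?_ ?_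
  · rintro ⟨p, q⟩ _ ⟨p', q'⟩ _ he
    simp only [Prod.mk.injEq] at he ⊢
    have h1 := DFunLike.congr_fun he.1 k
    have h2 := DFunLike.congr_fun he.2 k
    simp at h1 h2
    exact ⟨h1, h2⟩
  · rintro ⟨p, q⟩ hp
    simp only [mem_coe, HasAntidiagonal.mem_antidiagonal] at hp ⊢
    rw [← hp, Finsupp.single_add]
    abel
  · rintro ⟨q, p⟩ hp hn
    simp only [mem_coe, HasAntidiagonal.mem_antidiagonal, Set.mem_image, Prod.mk.injEq,
      Prod.exists, not_exists, not_and] at hp hn ⊢
    by_cases hd : dilog B (Finsupp.single k 1) p = 0
    · rw [hd]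
      ring
    · exfalso
      have e := dilog_supp hd
      have hk := DFunLike.congr_fun hp k
      simp [hβ] at hk
      refine hn (q k) (p k) (by omega) ?_ e.symm
      ext j
      have hj := DFunLike.congr_fun hp j
      rw [e] at hj
      simp only [Finsupp.add_apply] at hj ⊢
      by_cases hjk : j = k
      · subst hjk
        simp [hβ]
      · rw [Finsupp.single_apply, if_neg (Ne.symm hjk)] at hj ⊢
        rw [Finsupp.single_apply, if_neg (Ne.symm hjk)] at hj
        omega
  · rintro ⟨p, q⟩ hp
    have e : omega B (toZ (β + Finsupp.single k p)) (toZ (Finsupp.single k q)) =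
        -omega B (toZ (Finsupp.single k 1)) (toZ β) * q := by
      rw [toZ_add, omega_add_left, omega_single_right k q, omega_single_right k q,
        omega_single_left k p, omega_self hB, omega_swap hB (toZ β)]
      ring
    rw [strip, PowerSeries.coeff_mk, H21.coeff_Psi, dilog_single, e]
    ring

theorem strip_injective_zero {k : Fin r} {g : QSeries B} (hf : ∀ m, g (Finsupp.single k m) = psi m) :
    strip k 0 g = H21.Psi 0 := by
  ext m
  rw [strip, PowerSeries.coeff_mk, H21.coeff_Psi, zero_add, hf]
  simp

theorem face_of_mul (hB : B.transpose = -B) {k : Fin r} {g h : QSeries B}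
    (hf : ∀ m, g (Finsupp.single k m) = psi m) (hgh : g = dilog B (Finsupp.single k 1) * h)
    (m : ℕ) (hm : m ≠ 0) : h (Finsupp.single k m) = 0 := by
  have e := strip_dilog_mul hB (k := k) (β := 0) rfl h
  rw [← hgh, strip_injective_zero hf, toZ_zero, omega_zero_right] at e
  have e2 : (1 : PowerSeries K) * H21.Psi 0 = strip k 0 h * H21.Psi 0 := by rw [one_mul]; exact e
  have e3 := mul_right_cancel₀ (H21.Psi_ne_zero _) e2
  have e4 := congrArg (PowerSeries.coeff m) e3
  rw [strip, PowerSeries.coeff_mk, zero_add, PowerSeries.coeff_one, if_neg hm] at e4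
  exact e4.symm

theorem face_of_mul' (hB : B.transpose = -B) {k : Fin r} {g l : QSeries B}
    (hf : ∀ m, g (Finsupp.single k m) = psi m) (hgl : g = l * dilog B (Finsupp.single k 1))
    (m : ℕ) (hm : m ≠ 0) : l (Finsupp.single k m) = 0 := by
  have e := strip_mul_dilog hB (k := k) (β := 0) rfl l
  rw [← hgl, strip_injective_zero hf, toZ_zero, omega_zero_right, neg_zero] at e
  have e2 : (1 : PowerSeries K) * H21.Psi 0 = strip k 0 l * H21.Psi 0 := by rw [one_mul]; exact e
  have e3 := mul_right_cancel₀ (H21.Psi_ne_zero _) e2
  have e4 := congrArg (PowerSeries.coeff m) e3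
  rw [strip, PowerSeries.coeff_mk, zero_add, PowerSeries.coeff_one, if_neg hm] at e4
  exact e4.symm

theorem cone_line {k : Fin r} {a : Fin r → ℕ} (ha : a k = 0) {β : Fin r →₀ ℕ} (hβ : β k = 0)
    (i : ℕ) : β + Finsupp.single k i ∈ coneSub k a ↔ i ≤ ∑ j, β j * a j := by
  rw [mem_coneSub]
  have h1 : (β + Finsupp.single k i) k = i := by simp [hβ]
  have h2 : ∑ j, (β + Finsupp.single k i) j * a j = ∑ j, β j * a j := by
    refine sum_congr rfl fun j _ => ?_
    by_cases hj : j = k
    · subst hj
      rw [ha, mul_zero, mul_zero]
    · rw [Finsupp.add_apply, Finsupp.single_apply, if_neg (Ne.symm hj), add_zero]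
  rw [h1, h2]

/-- The two slopes: `w₋(β) - w₊(β) = ω(y_k, β)`. -/
theorem slope_diff (hB : B.transpose = -B) (k : Fin r) (β : Fin r →₀ ℕ) :
    ((∑ j, β j * (max (B k j) 0).toNat : ℕ) : ℤ) =
      (∑ j, β j * (max (B j k) 0).toNat : ℕ) + omega B (toZ (Finsupp.single k 1)) (toZ β) := by
  have h : ∀ j, B j k = - B k j := by
    intro j
    have := congrFun (congrFun hB k) j
    simpa using this
  have e : omega B (toZ (Finsupp.single k 1)) (toZ β) = ∑ j, B k j * (β j : ℤ) := by
    rw [← chartAt_apply, chartAt]
    simp
  rw [e]
  push_cast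
  rw [← sum_add_distrib]
  refine sum_congr rfl fun j _ => ?_
  rw [h j, Int.toNat_of_nonneg (le_max_right _ _), Int.toNat_of_nonneg (le_max_right _ _)]
  have hm : max (B k j) 0 = max (-B k j) 0 + B k j := by
    rcases le_total 0 (B k j) with h0 | h0
    · rw [max_eq_left h0, max_eq_right (by omega), zero_add]
    · rw [max_eq_right h0, max_eq_left (by omega)]
      omega
  rw [hm]
  ring

/-- The support lemma, given the face property. -/
theorem support_of_face (hB : B.transpose = -B) {k : Fin r} {g h l : QSeries B}
    (hg : IsCluster B g) (hf : ∀ m, g (Finsupp.single k m) = psi m)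
    (hgh : g = dilog B (Finsupp.single k 1) * h) (hgl : g = l * dilog B (Finsupp.single k 1)) :
    ∀ b, (h b ≠ 0 → b ∈ coneSub k fun j => (max (B j k) 0).toNat) ∧
      (l b ≠ 0 → b ∈ coneSub k fun j => (max (B k j) 0).toNat) := by
  have hkk : B k k = 0 := by
    have := congrFun (congrFun hB k) k
    simp only [Matrix.transpose_apply, Matrix.neg_apply] at this
    omega
  have ha : (fun j => (max (B j k) 0).toNat) k = 0 := by simp [hkk]
  have ha' : (fun j => (max (B k j) 0).toNat) k = 0 := by simp [hkk]
  intro b
  induction hn : lev k b using Nat.strong_induction_on generalizing b with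
  | _ n ih =>
    subst hn
    rcases Nat.eq_zero_or_pos (lev k b) with h0 | hpos
    · have e := eq_single_of_lev h0
      by_cases hk : b k = 0
      · rw [e, hk, Finsupp.single_zero]
        exact ⟨fun _ => zero_mem _, fun _ => zero_mem _⟩
      · constructor
        · intro h1
          rw [e, face_of_mul hB hf hgh _ hk] at h1
          exact absurd rfl h1
        · intro h1
          rw [e, face_of_mul' hB hf hgl _ hk] at h1
          exact absurd rfl h1
    · -- the line through `b`
      set β := b.erase k with hβ
      have hβk : β k = 0 := by simp [hβ]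
      have hbβ : β + Finsupp.single k (b k) = b := by
        rw [hβ]
        exact Finsupp.erase_add_single k b
      have hlev : ∀ i, lev k (β + Finsupp.single k i) = lev k b := by
        intro i
        rw [lev_add, lev_single, add_zero, ← hbβ, lev_add, lev_single, add_zero]
      have hchart : ∀ i, chartAt B 0 (β + Finsupp.single k i) k =
          omega B (toZ (Finsupp.single k 1)) (toZ β) := by
        intro i
        rw [chartAt_apply, toZ_add, omega_add_right, omega_single_right, omega_self hB]
        ring
      have key : strip k β h * H21.Psi (omega B (toZ (Finsupp.single k 1)) (toZ β)) =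
          strip k β l * H21.Psi (-omega B (toZ (Finsupp.single k 1)) (toZ β)) := by
        rw [← strip_dilog_mul hB hβk, ← strip_mul_dilog hB hβk, ← hgh, ← hgl]
      have hsl := slope_diff hB k β
      have co : ∀ (F : QSeries B) (i : ℕ), PowerSeries.coeff i (strip k β F) =
          F (β + Finsupp.single k i) := fun F i => by rw [strip, PowerSeries.coeff_mk]
      have both : (∀ i, (∑ j, β j * (max (B j k) 0).toNat) < i → h (β + Finsupp.single k i) = 0) ∧
          (∀ i, (∑ j, β j * (max (B k j) 0).toNat) < i → l (β + Finsupp.single k i) = 0) := by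
        rcases le_or_gt 0 (omega B (toZ (Finsupp.single k 1)) (toZ β)) with hω | hω
        · have h1 : ∀ i, (∑ j, β j * (max (B j k) 0).toNat) < i →
              h (β + Finsupp.single k i) = 0 := by
            intro i hi
            refine step_right hB (a := fun j => (max (B j k) 0).toNat) ha hg hgh
              (by rw [hlev]; exact hpos) ?_ (by rw [hchart]; exact hω) ?_
            · intro γ hγ hne
              rw [hlev] at hγ
              exact (ih _ hγ γ rfl).1 hne
            · rw [cone_line ha hβk]
              exact not_le.2 hi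
          refine ⟨h1, ?_⟩
          obtain ⟨n, hn⟩ := Int.eq_ofNat_of_zero_le hω
          rw [hn] at key hsl
          intro i hi
          rw [← co l i]
          refine H21.tail_bound key (R := ∑ j, β j * (max (B j k) 0).toNat) ?_ i (by omega)
          intro i' hi'
          rw [co]
          exact h1 i' hi'
        · have h1 : ∀ i, (∑ j, β j * (max (B k j) 0).toNat) < i →
              l (β + Finsupp.single k i) = 0 := by
            intro i hi
            refine step_left hB (a := fun j => (max (B k j) 0).toNat) ha' hg hgl
              (by rw [hlev]; exact hpos) ?_ (by rw [hchart]; exact hω) ?_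
            · intro γ hγ hne
              rw [hlev] at hγ
              exact (ih _ hγ γ rfl).2 hne
            · rw [cone_line ha' hβk]
              exact not_le.2 hi
          refine ⟨?_, h1⟩
          obtain ⟨n, hn⟩ := Int.eq_ofNat_of_zero_le (neg_nonneg.2 hω.le)
          have hn' : omega B (toZ (Finsupp.single k 1)) (toZ β) = -(n : ℤ) := by omega
          rw [hn', neg_neg] at key
          rw [hn'] at hsl
          intro i hi
          rw [← co h i]
          refine H21.tail_bound key.symm (R := ∑ j, β j * (max (B k j) 0).toNat) ?_ i (by omega)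
          intro i' hi'
          rw [co]
          exact h1 i' hi'
      constructor
      · intro h1
        rw [← hbβ, cone_line ha hβk]
        by_contra hc
        rw [← hbβ] at h1
        exact h1 (both.1 _ (not_le.1 hc))
      · intro h1
        rw [← hbβ, cone_line ha' hβk]
        by_contra hc
        rw [← hbβ] at h1
        exact h1 (both.2 _ (not_le.1 hc))

end SuppM

open QSeries SuppM in
/-- `SupportLemma` given the face property (U6). -/
theorem supportLemma_of_face
    (hface : ∀ (r : ℕ) (B : Matrix (Fin r) (Fin r) ℤ), B.transpose = -B → ∀ g : QSeries B,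
      IsCluster B g → ∀ (j : Fin r) (m : ℕ), g (Finsupp.single j m) = psi m) :
    SupportLemma := by
  intro r B hB k g hg
  have hP : IsUnit (dilog B (Finsupp.single k 1)) := isUnit_of_one (dilog_zero k)
  have e1 : g = dilog B (Finsupp.single k 1) *
      (Ring.inverse (dilog B (Finsupp.single k 1)) * g) := by
    rw [← mul_assoc, Ring.mul_inverse_cancel _ hP, one_mul]
  have e2 : g = g * Ring.inverse (dilog B (Finsupp.single k 1)) *
      dilog B (Finsupp.single k 1) := by
    rw [mul_assoc, Ring.inverse_mul_cancel _ hP, mul_one]
  constructor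
  · intro h hgh b hb
    exact ((support_of_face hB hg (hface r B hB g hg k) hgh e2) b).1 hb
  · intro l hgl b hb
    exact ((support_of_face hB hg (hface r B hB g hg k) e1 hgl) b).2 hb

/-- The support lemma (U5a). -/
theorem supportLemma : SupportLemma :=
  supportLemma_of_face fun _ _ hB _ hg j m => cluster_face hB hg j m

end

end Vale.Agent.P066.Theta
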