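import Vale.Agent.P066.Theta.H366.Cases
import Vale.Agent.P066.Theta.H21.Comm
import Vale.Agent.P066.Theta.Support

/-!
# The mutation theorem (U5b)

If `g = Ψ(y_k) h` is the element of the cluster scattering diagram of the seed `B` then
`transp h * Ψ(y'_k)` is the element of the seed mutated at `k`.
-/

set_option autoImplicit false

open Finset

namespace Vale.Agent.P066.Theta

noncomputable section

namespace H366

open QSeries

variable {r : ℕ} {B : Matrix (Fin r) (Fin r) ℤ}

theorem chart_mutB (hB : B.transpose = -B) (k : Fin r) (b : Fin r →₀ ℕ) :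
    chartAt (mutB B k) 0 b k = - chartAt B 0 b k := by
  unfold chartAt
  rw [Pi.zero_apply, zero_add, zero_add, ← sum_neg_distrib]
  refine sum_congr rfl fun j _ => ?_
  rw [mutB_apply_left hB]
  ring

theorem chart_tm (hB : B.transpose = -B) (a : Fin r → ℕ) (k : Fin r) (b : Fin r →₀ ℕ) :
    chartAt B 0 (tm a k b) k = chartAt B 0 b k := by
  unfold chartAt
  congr 1
  refine sum_congr rfl fun j _ => ?_
  by_cases h : j = k
  · subst h
    rw [skew_diag hB, zero_mul, zero_mul]
  · rw [tm_apply_ne a h]

theorem chart_line (b : Fin r →₀ ℕ) {k j : Fin r} (hBk : B k k = 0)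
    (h : ∀ i, i ≠ k → i ≠ j → b i = 0) : chartAt B 0 b k = B k j * (b j : ℤ) := by
  unfold chartAt
  rw [Pi.zero_apply, zero_add, sum_eq_single j]
  · intro i _ hi
    by_cases hk : i = k
    · rw [hk, hBk, zero_mul]
    · rw [h i hk hi]
      simp
  · intro h
    exact absurd (mem_univ j) h

theorem transp_eq_cc (hB : B.transpose = -B) (k : Fin r) (h : QSeries B) :
    transp B k h = (cc (compat_plus hB k)).tr h := by
  rw [cc_tr, transp_eq]

theorem trL_eq_cc (hB : B.transpose = -B) (k : Fin r) (l : QSeries B) :
    H21.trL B k l = (cc (compat_minus hB k)).tr l := by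
  classical
  ext b
  by_cases hb : b ∈ coneA (aminus B k) k
  · rw [(cc (compat_minus hB k)).tr_mem hb]
    exact H21.tr_apply l hb
  · rw [(cc (compat_minus hB k)).tr_not_mem hb]
    exact if_neg hb

theorem mutation_aux (hB : B.transpose = -B) (k : Fin r) {g h l : QSeries B} (hg : IsCluster B g)
    (hgh : g = dilog B (Finsupp.single k 1) * h) (hgl : g = l * dilog B (Finsupp.single k 1))
    (hh : ∀ b, h b ≠ 0 → b k ≤ wplus B k b) (hl : ∀ b, l b ≠ 0 → b k ≤ wminus B k b) :
    IsCluster (mutB B k) (transp B k h * dilog (mutB B k) (Finsupp.single k 1)) := by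
  rw [isCluster_iff] at hg ⊢
  obtain ⟨hg0, hg⟩ := hg
  have hP0 := dilog_zero B k
  have hP0' := dilog_zero (mutB B k) k
  have hPm := dilog_mem_axis B k
  have hPm' := dilog_mem_axis (mutB B k) k
  have hB' := mutB_skew hB k
  have hh0 : h 0 = 1 := by
    rw [hgh, mul_zero_apply, hP0, one_mul] at hg0
    exact hg0
  have hl0 : l 0 = 1 := by
    rw [hgl, mul_zero_apply, hP0, mul_one] at hg0
    exact hg0
  have hhS : h ∈ supp (B := B) (coneA (aplus B k) k) := hh
  have hlS : l ∈ supp (B := B) (coneA (aminus B k) k) := hl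
  have hcomm := H21.transp_comm hB k hh hl (hgh.symm.trans hgl)
  rw [trL_eq_cc hB k] at hcomm
  rw [transp_eq_cc hB k] at hcomm ⊢
  have hh0' : (cc (compat_plus hB k)).tr h 0 = 1 := by
    rw [(cc (compat_plus hB k)).tr_apply_zero, hh0]
  have hl0' : (cc (compat_minus hB k)).tr l 0 = 1 := by
    rw [(cc (compat_minus hB k)).tr_apply_zero, hl0]
  refine ⟨by rw [mul_zero_apply, hh0', hP0', one_mul], fun b' hb' => ?_⟩
  have hq : ∀ a : Fin r → ℕ, chartAt B 0 (tm a k b') k = - chartAt (mutB B k) 0 b' k := by
    intro a
    rw [chart_tm hB, chart_mutB hB, neg_neg]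
  by_cases hx : b' ∈ axis k
  · -- multiples of `y'_k`
    have hb := mem_axis_iff.1 hx
    have hn : b' k ≠ 0 := by
      intro h0
      rw [h0, Finsupp.single_zero] at hb
      exact hb' hb
    have hQ : chartAt (mutB B k) 0 b' k = 0 := by
      rw [chart_mutB hB, chart_line b' (j := k) (skew_diag hB k) fun i hi _ => hx i hi,
        skew_diag hB]
      simp
    rw [datW_mul_zero hB' one1 hh0' hP0' (supp_mono (axis_le_zero hQ) hPm'),
      datW_tr_not_mem (compat_plus hB k) hh0 one1, zero_add]
    · rw [hb]
      exact logD_dilog_single hB' k hn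
    · rw [mem_coneA, hb, wa_single, aplus_self hB, mul_zero, Finsupp.single_eq_same]
      omega
  · rcases lt_or_ge 0 (chartAt (mutB B k) 0 b' k) with hQ | hQ
    · -- positive side: use `l`
      rw [hcomm, datW_pos_mul one1 hl0' hP0' (supp_mono (axis_le_pos hQ) hPm')]
      refine dat_compare hB (compat_minus hB k) hl0 hlS hb' hx ?_ ?_
      · intro hbc
        have hb0 : tm (aminus B k) k b' ≠ 0 := fun h0 =>
          hb' (tm_eq_zero (compat_minus hB k).ak hbc h0)
        rw [← hg _ hb0, hgl]
        refine (datW_mul_neg one1 hl0 hP0 (supp_mono (axis_le_neg ?_) hPm)).symm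
        rw [hq]
        omega
      · intro j hjk hj hjo
        rw [chart_mutB hB, chart_line b' (skew_diag hB k) hjo] at hQ
        have h1 : (0 : ℤ) < (b' j : ℤ) := by exact_mod_cast Nat.pos_of_ne_zero hj
        have h2 : B k j ≤ 0 := by
          by_contra hc
          push Not at hc
          have := mul_pos hc h1
          omega
        unfold aminus
        rw [max_eq_right h2]
        rfl
    · -- nonpositive side: use `h`
      have hdat : b' ∈ coneA (aplus B k) k →
          datW one1 h (tm (aplus B k) k b') = clusterData (tm (aplus B k) k b') := by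
        intro hbc
        have hb0 : tm (aplus B k) k b' ≠ 0 := fun h0 =>
          hb' (tm_eq_zero (compat_plus hB k).ak hbc h0)
        rw [← hg _ hb0, hgh]
        rcases hQ.lt_or_eq with hQ | hQ
        · refine (datW_pos_mul one1 hh0 hP0 (supp_mono (axis_le_pos ?_) hPm)).symm
          rw [hq]
          omega
        · rw [datW_zero_mul hB one1 hh0 hP0 (supp_mono (axis_le_zero (by rw [hq, hQ, neg_zero])) hPm),
            logD_dilog_of_not k (fun h1 => hx (tm_mem_axis.1 h1)), zero_add]
      have hax : ∀ j, j ≠ k → b' j ≠ 0 → (∀ i, i ≠ k → i ≠ j → b' i = 0) → aplus B k j = 0 := by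
        intro j hjk hj hjo
        rw [chart_mutB hB, chart_line b' (skew_diag hB k) hjo] at hQ
        have h1 : (0 : ℤ) < (b' j : ℤ) := by exact_mod_cast Nat.pos_of_ne_zero hj
        have h2 : B j k ≤ 0 := by
          rw [skew_apply hB]
          by_contra hc
          push Not at hc
          have := mul_pos (show 0 < - B k j by omega) h1
          have h3 : -B k j * (b' j : ℤ) = -(B k j * (b' j : ℤ)) := by ring
          omega
        unfold aplus
        rw [max_eq_right h2]
        rfl
      have key := dat_compare hB (compat_plus hB k) hh0 hhS hb' hx hdat hax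
      rw [← key]
      rcases hQ.lt_or_eq with hQ | hQ
      · exact datW_mul_neg one1 hh0' hP0' (supp_mono (axis_le_neg hQ) hPm')
      · rw [datW_mul_zero hB' one1 hh0' hP0' (supp_mono (axis_le_zero hQ) hPm'),
          logD_dilog_of_not k hx, add_zero]

end H366

open QSeries in
/-- The mutation theorem, from the support lemma. -/
theorem mutationTheorem_of_support (hS : SupportLemma) : MutationTheorem := by
  intro r B hB k g h hg hgh
  have hu : IsUnit (dilog B (Finsupp.single k 1)) := isUnit_of_one (H366.dilog_zero B k)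
  have hgl : g = (g * Ring.inverse (dilog B (Finsupp.single k 1))) *
      dilog B (Finsupp.single k 1) := by
    rw [mul_assoc, Ring.inverse_mul_cancel _ hu, mul_one]
  obtain ⟨h1, h2⟩ := hS r B hB k g hg
  exact H366.mutation_aux hB k hg hgh hgl (h1 h hgh) (h2 _ hgl)

/-- The mutation theorem. -/
theorem mutationTheorem : MutationTheorem := mutationTheorem_of_support supportLemma

end

end Vale.Agent.P066.Theta
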