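import Vale.Agent.P066.Theta.H252.NStep
import Vale.Agent.P066.Theta.H615.Fact

/-!
# `g = A · g'` for the cluster element of the extended seed (U5c)
-/

set_option autoImplicit false

open Finset

namespace Vale.Agent.P066.Theta

noncomputable section

open H252 in
theorem step_core {r : ℕ} {B B' : Matrix (Fin r) (Fin r) ℤ} {n : Fin r → ℕ} {k : Fin r}
    (hn : n k = 0) (hIso : Iso B B' n k) {s s' : Fin r → ℤ}
    (hs : wt s' (Finsupp.single k 1) ≤ 0)
    (hss : ∀ γ ∈ cone n k, wt s' (H252.flip n k γ) = wt s γ)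
    {h : QSeries B} (hh : h ∈ QSeries.supp (B := B) (cone n k)) {P' κ' : QSeries B'}
    {P : QSeries B} (hP1 : P' ∈ QSeries.supp (B := B') (cone n k)) (hP0 : P' 0 = 1)
    (hP2 : tr B' B n k P' = P) (hκ : ∀ γ, κ' γ ≠ 0 → wt s' γ ≤ 0)
    (e : tr B B' n k h * dilog B' (Finsupp.single k 1) = P' * κ') :
    ∃ κ : QSeries B, h = P * κ ∧ ∀ γ, κ γ ≠ 0 → wt s γ ≤ 0 := by
  have hsingle : Finsupp.single k 1 ≠ 0 := by simp
  have hD0 : dilog B' (Finsupp.single k 1) 0 = 1 := dilog_zero_apply hsingle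
  have hD := QSeries.isUnit_of_one hD0
  have hP := QSeries.isUnit_of_one hP0
  have hT : tr B B' n k h = P' * (κ' * Ring.inverse (dilog B' (Finsupp.single k 1))) := by
    rw [← mul_assoc, ← e, mul_assoc, Ring.mul_inverse_cancel _ hD, mul_one]
  have hκc : κ' * Ring.inverse (dilog B' (Finsupp.single k 1)) ∈
      QSeries.supp (B := B') (cone n k) := by
    have e : κ' * Ring.inverse (dilog B' (Finsupp.single k 1)) =
        Ring.inverse P' * tr B B' n k h := by
      rw [hT, ← mul_assoc, Ring.inverse_mul_cancel _ hP, one_mul]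
    rw [e]
    exact Subalgebra.mul_mem _
      (QSeries.inverse_mem_supp hP1 (by rw [hP0]; exact one_ne_zero)) (tr_mem _ _ _)
  have hκs : κ' * Ring.inverse (dilog B' (Finsupp.single k 1)) ∈
      QSeries.supp (B := B') (leSub s') := by
    have e1 : κ' ∈ QSeries.supp (B := B') (leSub s') := fun γ hγ => mem_leSub.2 (hκ γ hγ)
    have e2 : dilog B' (Finsupp.single k 1) ∈ QSeries.supp (B := B') (leSub s') :=
      dilog_mem (mem_leSub.2 hs)
    exact Subalgebra.mul_mem _ e1
      (QSeries.inverse_mem_supp e2 (by rw [hD0]; exact one_ne_zero))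
  refine ⟨tr B' B n k (κ' * Ring.inverse (dilog B' (Finsupp.single k 1))), ?_, ?_⟩
  · rw [← hP2, ← tr_mul hn (hIso.symm hn) hP1 hκc, ← hT, tr_tr hn hh]
  · intro γ hγ
    have h1 : γ ∈ cone n k := tr_mem _ _ _ γ hγ
    rw [tr_of_mem _ h1] at hγ
    have h2 := mem_leSub.1 (hκs _ hγ)
    rw [hss γ h1] at h2
    exact h2

open H252 in
theorem nStep_aux (hS : SupportLemma) (hM : MutationTheorem) {N k : ℕ} (hk : 1 ≤ k) :
    ∀ d a : ℕ, a + d = N → ∀ g : QSeries (seedB N k a), IsCluster (seedB N k a) g →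
      ∃ κ : QSeries (seedB N k a), g = PP (seedB N k a) a * κ ∧
        ∀ γ, κ γ ≠ 0 → wt (sform N a) γ ≤ 0 := by
  intro d
  induction d with
  | zero =>
    intro a had g _
    refine ⟨g, ?_, ?_⟩
    · have : N - a = 0 := by omega
      unfold PP
      rw [this]
      simp
    · intro γ _
      unfold wt sform
      refine sum_nonpos fun i _ => ?_
      have h1 : (if (i : ℕ) = a then (1 : ℤ) else 0) = 0 := if_neg (by omega)
      rw [h1]
      have h2 : (0 : ℤ) ≤ if (i : ℕ) + 1 = a then 1 else 0 := by split_ifs <;> norm_num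
      have h3 : (0 : ℤ) ≤ (γ i : ℤ) := Int.natCast_nonneg _
      nlinarith
  | succ d ih =>
    intro a had g hg
    have ha : a < N := by omega
    have hB := seedB_skew N k a
    have hn := nn_self hB ⟨a, ha⟩
    have hIso : Iso (seedB N k a) (seedB N k (a + 1)) (nn (seedB N k a) ⟨a, ha⟩) ⟨a, ha⟩ := by
      have h := iso_mutB hB (⟨a, ha⟩ : Fin N)
      rw [mutB_seedB N k a hk ha] at h
      exact h
    have hsingle : Finsupp.single (⟨a, ha⟩ : Fin N) 1 ≠ 0 := by simp
    have hΨ0 : dilog (seedB N k a) (Finsupp.single ⟨a, ha⟩ 1) 0 = 1 := dilog_zero_apply hsingle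
    have hΨ := QSeries.isUnit_of_one hΨ0
    obtain ⟨h, hh⟩ : ∃ h, g = dilog (seedB N k a) (Finsupp.single ⟨a, ha⟩ 1) * h :=
      ⟨Ring.inverse (dilog (seedB N k a) (Finsupp.single ⟨a, ha⟩ 1)) * g, by
        rw [← mul_assoc, Ring.mul_inverse_cancel _ hΨ, one_mul]⟩
    have hsupp : h ∈ QSeries.supp (B := seedB N k a) (cone (nn (seedB N k a) ⟨a, ha⟩) ⟨a, ha⟩) := by
      intro γ hγ
      have := (hS N (seedB N k a) hB ⟨a, ha⟩ g hg).1 h hh γ hγ
      rw [wplus_eq] at this
      exact mem_cone.2 this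
    have hcl := hM N (seedB N k a) hB ⟨a, ha⟩ g h hg hh
    rw [transp_eq] at hcl
    rw [mutB_seedB N k a hk ha] at hcl
    obtain ⟨κ', hκ1, hκ2⟩ := ih (a + 1) (by omega) _ hcl
    have hlist : ∀ b ∈ List.range' (a + 1) (N - (a + 1)),
        iv N (a + 1) b ∈ cone (nn (seedB N k a) ⟨a, ha⟩) ⟨a, ha⟩ ∧ iv N (a + 1) b ≠ 0 ∧
          H252.flip (nn (seedB N k a) ⟨a, ha⟩) ⟨a, ha⟩ (iv N (a + 1) b) = iv N a b := by
      intro b hb
      rw [List.mem_range'_1] at hb
      obtain ⟨h1, h2⟩ := flip_iv (k := k) (b := b) hk ha hb.1 (by omega)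
      exact ⟨h1, iv_ne (N := N) (a := a + 1) (b := b) (by omega) hb.1, h2⟩
    obtain ⟨hP1, hP2⟩ := tr_prod_dilog (B := seedB N k (a + 1)) (B' := seedB N k a) hn
      (hIso.symm hn) (fun b => iv N (a + 1) b) (fun b => iv N a b) _ hlist
    have hP0 : PP (seedB N k (a + 1)) (a + 1) 0 = 1 :=
      prod_dilog_zero _ _ fun b hb => (hlist b hb).2.1
    have hs : wt (sform N (a + 1)) (Finsupp.single (⟨a, ha⟩ : Fin N) 1) ≤ 0 := by
      unfold wt sform
      refine sum_nonpos fun i _ => ?_
      rw [Finsupp.single_apply]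
      by_cases hi : (⟨a, ha⟩ : Fin N) = i
      · subst hi
        simp
      · rw [if_neg hi]
        simp
    obtain ⟨κ, h1, h2⟩ := step_core hn hIso hs (fun γ hγ => sform_flip hk ha hγ) hsupp
      (P' := PP (seedB N k (a + 1)) (a + 1)) hP1 hP0 hP2 hκ2 hκ1
    refine ⟨κ, ?_, h2⟩
    have e3 : PP (seedB N k a) a = dilog (seedB N k a) (Finsupp.single ⟨a, ha⟩ 1) *
        ((List.range' (a + 1) (N - (a + 1))).map fun b => dilog (seedB N k a) (iv N a b)).prod := by
      unfold PP
      rw [show N - a = (N - (a + 1)) + 1 by omega, List.range'_succ, List.map_cons,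
        List.prod_cons, iv_self ha]
    rw [hh, e3, mul_assoc, ← h1]

open H252 in
/-- **U5c**: the cluster element of the extended seed of `P_{N,k}` is `A * g₂`, `g₂` without
`y_0`. -/
theorem nStep (hS : SupportLemma) (hM : MutationTheorem) {N k : ℕ} (hk : 1 ≤ k)
    (g : QSeries (extB N k)) (hg : IsCluster (extB N k) g) :
    ∃ g₂ : QSeries (extB N k), (∀ γ, g₂ γ ≠ 0 → ∀ i : Fin N, (i : ℕ) = 0 → γ i = 0) ∧
      g = Aprod N k * g₂ := by
  have h := nStep_aux (N := N) hS hM hk N 0 (Nat.zero_add N)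
  rw [seedB_zero] at h
  obtain ⟨κ, h1, h2⟩ := h g hg
  refine ⟨κ, ?_, ?_⟩
  · intro γ hγ i hi
    have h3 := h2 γ hγ
    have h4 : wt (sform N 0) γ = γ i := by
      unfold wt sform
      rw [sum_eq_single i]
      · simp [hi]
      · intro j _ hj
        rw [if_neg (fun h => hj (Fin.ext (by omega))), if_neg (by omega)]
        simp
      · intro h
        exact absurd (mem_univ _) h
    omega
  · rw [h1]
    congr 1
    rw [Dil.Aprod_eq]
    unfold PP
    have h5 : ∀ n : ℕ, n ≤ N → ((List.range' 0 n).map fun b => dilog (extB N k) (iv N 0 b)).prod =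
        DilogAlg.Apr (fun a => dilog (extB N k) (Dil.ev N a)) n := by
      intro n
      induction n with
      | zero => intro _; simp [DilogAlg.Apr]
      | succ n ih =>
        intro hn
        rw [List.range'_1_concat, List.map_append, List.prod_append, ih (by omega)]
        simp only [List.map_cons, List.map_nil, List.prod_cons, List.prod_nil, mul_one, zero_add,
          DilogAlg.Apr]
        congr 2
        ext i
        rw [iv_apply, Dil.ev, epsExp_apply]
        by_cases hi : (i : ℕ) ≤ n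
        · rw [if_pos ⟨Nat.zero_le _, hi⟩, sum_eq_single (⟨n, by omega⟩ : Fin N)]
          · simp
          · intro b _ hb
            rw [if_neg (fun h => hb (Fin.ext h))]
          · intro h
            exfalso
            apply h
            rw [mem_filter]
            exact ⟨mem_univ _, Fin.le_def.2 hi⟩
        · rw [if_neg (by omega), sum_eq_zero]
          intro b hb
          rw [mem_filter, Fin.le_def] at hb
          rw [if_neg (by omega)]
    exact h5 N le_rfl

end

end Vale.Agent.P066.Theta
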