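import Vale.Agent.P066.Theta.Element
import Vale.Agent.P066.Theta.H675.Compose
import Vale.Agent.P066.Theta.H11.CoeffPos

/-!
# Top level composition of the unconditional Shareshian-Wachs theorem

`shareshianWachs_of`: the open inputs (`S6b`, `U3`, `U4`, `U5`, the local theorem) are hypotheses.
-/

set_option autoImplicit false

open Finset

namespace Vale.Agent.P066.Theta

theorem s3bPos : S3bPos := fun _ _ _ h0 hsp _ _ hF γ =>
  coeff_pos (Dil.extB_skew _ _) h0 hsp hF γ

theorem s3bStr : S3bStr := fun _ _ _ h0 hsp _ hf =>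
  string_of_face (Dil.extB_skew _ _) h0 hsp hf

/-- The Shareshian-Wachs theorem, conditional on the inputs which are still open. -/
theorem shareshianWachs_of (hC : S6bProp) (h3 : U3Prop) (h4 : U4Prop) (h5 : U5Prop)
    (h7 : LocalTheorem) {n : ℕ} (h : Fin n → Fin n) (hmono : Monotone h) :
    ∃ c : n.Partition → Polynomial ℤ, (∀ p k, 0 ≤ (c p).coeff k) ∧
      ∀ c' : n.Partition → Polynomial ℤ,
        (∀ N, chromaticQSF (unitIntervalGraph h) N =
          ∑ p : n.Partition,
            MvPolynomial.C (c' p) * MvPolynomial.esymmPart (Fin N) (Polynomial ℤ) p) ↔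
          c' = c :=
  sw_of_good s3bPos s3bStr hC
    (fun N k hN hk => goodElement_of_u5 h3 h4 h5 h7 N k hN hk) h hmono

end Vale.Agent.P066.Theta
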