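import Vale.Agent.P066.Theta.Top
import Vale.Agent.P066.Theta.H463.WallPos
import Vale.Agent.P066.Theta.H235.Chart
import Vale.Agent.P066.Theta.NStep
import Vale.Agent.P066.Theta.Mutate

/-!
# Top level composition: the two remaining inputs are `S6bProp` and the local theorem
-/

set_option autoImplicit false

open Finset

namespace Vale.Agent.P066.Theta

/-- `U3`. -/
theorem u3Prop : U3Prop := fun h7 _ _ hB _ h0 hA => wallPos_of_attrPos h7 hB h0 hA

/-- `U4`. -/
theorem u4Prop : U4Prop := fun _ _ hB _ h0 hW => strongPositivity_of_wallPos hB h0 hW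

/-- `U5`. -/
theorem u5Prop : U5Prop := fun _ _ _ hk g hg => nStep supportLemma mutationTheorem hk g hg

/-- The Shareshian-Wachs theorem from `S6b` and the local theorem. -/
theorem shareshianWachs_of_local (hC : S6bProp) (h7 : LocalTheorem) {n : ℕ} (h : Fin n → Fin n)
    (hmono : Monotone h) :
    ∃ c : n.Partition → Polynomial ℤ, (∀ p k, 0 ≤ (c p).coeff k) ∧
      ∀ c' : n.Partition → Polynomial ℤ,
        (∀ N, chromaticQSF (unitIntervalGraph h) N =
          ∑ p : n.Partition,
            MvPolynomial.C (c' p) * MvPolynomial.esymmPart (Fin N) (Polynomial ℤ) p) ↔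
          c' = c :=
  shareshianWachs_of hC u3Prop u4Prop u5Prop h7 h hmono

end Vale.Agent.P066.Theta
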